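import Crest.Agent.X212.Pen22.Defs
import Crest.Agent.X212.Geo28.Bas
import Crest.Agent.X212.Mv17.Gl

/-!
# Row 212, layer GEO (helper22): times, classes and forms of gluings
-/

set_option autoImplicit false
set_option linter.unusedSectionVars false

open Set Filter Topology Function Module
open scoped ContDiff Manifold
open Crest.Agent.R208 Crest.Agent.R208.F
open Crest.Agent.X212.Dr59 (Cs Cl Ex HZ Bd Lat Mp ip pm psh)
open Crest.Agent.X212.Int54 (SameOn)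
open Crest.Agent.X212.Orx52 (Pos)
open Crest.Agent.X212.Rod53 (ld_pd)
open Crest.Agent.X212.Rfl19 Crest.Agent.X212.Nvg56

noncomputable section

namespace Crest.Agent.X212.Pen22

open Bor5.T Geo28

/-- partial diffeomorphisms -/
abbrev PD (X X' : M4) : Type := PartialDiffeomorph X.I X'.I X.M X'.M ∞

instance (X : M4) : SigmaCompactSpace X.M := Int54.sigmaCompact (I := X.I) X.M

/-! ### times -/

section tm

variable {A : O3} {X X' X₁ X₂ : M4} {J : Set ℝ}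

theorem exists_k (k : Nc A X J) {p : X.M} (h : k.tm p ∈ J) : ∃ y, k.k (y, k.tm p) = p := by
  have h1 : p ∈ k.k.target := k.tgt.ge h
  have h2 := k.tmk _ (k.k.map_target h1)
  have h3 := k.k.right_inv h1
  refine ⟨(k.k.symm p).1, ?_⟩
  conv_rhs => rw [← h3]
  exact congrArg k.k (Prod.ext rfl (((congrArg k.tm h3).symm.trans h2)))

theorem tm_k (k : Nc A X J) (y : A.Y.M) {t : ℝ} (h : t ∈ J) : k.tm (k.k (y, t)) = t :=
  k.tmk _ (k.src.ge ⟨trivial, h⟩)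

theorem mt_tm {f : PD X X'} (h0 : (0 : ℝ) ∉ J) : ∀ {a : Option O3} {k : Ec a X J} {k' : Ec a X' J},
    Ec.Mt 0 f k k' → (∀ p, k.tm p ∈ J → p ∈ f.source) → ∀ p ∈ f.source,
      (k.tm p ∈ J ∨ k'.tm (f p) ∈ J) → k'.tm (f p) = k.tm p
  | none, _, _, _, _, _, _, _ => rfl
  | some _, k, k', h, s, p, hp, e => by
    have h' := fun y t ht => h y t ht (abs_pos.2 fun e => h0 (e ▸ ht))
    rcases e with e | e
    · obtain ⟨y, hy⟩ := exists_k k e
      exact (congrArg (fun p => Nc.tm k' (f p)) hy).symm.trans ((congrArg (Nc.tm k') (h' y _ e)).trans (tm_k k' y e))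
    · obtain ⟨y, hy⟩ := exists_k k' e
      have e' := tm_k k y e
      exact e'.symm.trans (congrArg (Nc.tm k) (f.injOn (s _ (mem_of_eq_of_mem e' e)) hp ((h' y _ e).trans hy)))

variable {k₁ : Nc A X₁ (Ioi 0)} {k₂ : Nc A X₂ (Iio 0)} (g : Gl3 k₁ k₂ X)

theorem mem_l {p : X₁.M} : p ∈ g.l.source ↔ k₁.tm p < 4 := by rw [g.ls]; rfl

theorem mem_r {p : X₂.M} : p ∈ g.r.source ↔ -4 < k₂.tm p := by rw [g.rs]; rfl

theorem mem_lt {p : X.M} : p ∈ g.l.target ↔ g.n.tm p < 4 := by rw [g.lt]; rfl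

theorem mem_rt {p : X.M} : p ∈ g.r.target ↔ 0 < g.n.tm p := by rw [g.rt]; rfl

theorem tm_l {p : X₁.M} (hp : p ∈ g.l.source) (h : 0 < k₁.tm p ∨ 0 < g.n.tm (g.l p)) :
    g.n.tm (g.l p) = k₁.tm p := by
  rcases h with h | h
  · obtain ⟨y, hy⟩ := exists_k k₁ h
    have m : k₁.tm p ∈ Ioo (0 : ℝ) 4 := ⟨h, (mem_l g).1 hp⟩
    rw [← congrArg g.l hy, g.ol y _ m, tm_k _ y m]
  · have m : g.n.tm (g.l p) ∈ Ioo (0 : ℝ) 4 := ⟨h, (mem_lt g).1 (g.l.map_source hp)⟩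
    obtain ⟨y, hy⟩ := exists_k g.n m
    have e := tm_k k₁ y h
    exact e.symm.trans (congrArg k₁.tm (g.l.injOn ((mem_l g).2 (e.symm ▸ m.2)) hp ((g.ol y _ m).trans hy)))

theorem tm_r {p : X₂.M} (hp : p ∈ g.r.source) (h : k₂.tm p < 0 ∨ g.n.tm (g.r p) < 4) :
    g.n.tm (g.r p) = k₂.tm p + 4 := by
  rcases h with h | h
  · obtain ⟨y, hy⟩ := exists_k k₂ h
    have m : k₂.tm p + 4 ∈ Ioo (0 : ℝ) 4 := ⟨by linarith [(mem_r g).1 hp], by linarith⟩
    have := g.or y _ m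
    rw [add_sub_cancel_right, hy] at this
    rw [this, tm_k _ y m]
  · have m : g.n.tm (g.r p) ∈ Ioo (0 : ℝ) 4 := ⟨(mem_rt g).1 (g.r.map_source hp), h⟩
    obtain ⟨y, hy⟩ := exists_k g.n m
    have e := tm_k k₂ y (show g.n.tm (g.r p) - 4 ∈ Iio 0 from sub_neg.2 h)
    rw [← g.r.injOn ((mem_r g).2 (by rw [e]; linarith [m.1])) hp ((g.or y _ m).trans hy), e, sub_add_cancel,
      g.or y _ m, tm_k _ y m]

theorem l_le {p : X₁.M} {r : ℝ} (h0 : 0 ≤ r) (h4 : r < 4) (h : k₁.tm p ≤ r) : g.n.tm (g.l p) ≤ r :=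
  le_of_not_gt fun k => by linarith [tm_l g ((mem_l g).2 (h.trans_lt h4)) (.inr (h0.trans_lt k))]

theorem r_ge {p : X₂.M} {r : ℝ} (h0 : 0 ≤ r) (h4 : r < 4) (h : -r ≤ k₂.tm p) : 4 - r ≤ g.n.tm (g.r p) :=
  le_of_not_gt fun k => by linarith [tm_r g ((mem_r g).2 (by linarith)) (.inr (by linarith))]

theorem cov : g.l.target ∪ g.r.target = univ :=
  eq_univ_of_forall fun p => (lt_or_ge (g.n.tm p) 4).imp (mem_lt g).2 fun h => (mem_rt g).2 (by linarith)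

end tm

section cm

variable {a c : Option O3} {B : O3} {T₁ : Pm a (some B) none} {T₂ : Pm (some B) c none} {T : Pm a c none}
  (g : Cm T₁ T₂ T)

theorem ki_l {p : T₁.M} (hp : p ∈ g.l.source) (h : T₁.ki.tm p < 0 ∨ T.ki.tm (g.l p) < 0) :
    T.ki.tm (g.l p) = T₁.ki.tm p :=
  mt_tm (by simp) g.ki (fun p h => (mem_l g.toGl3).2 ((T₁.io p h).trans_lt four_pos)) p hp h

theorem ko_r {p : T₂.M} (hp : p ∈ g.r.source) (h : 0 < T₂.ko.tm p ∨ 0 < T.ko.tm (g.r p)) :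
    T.ko.tm (g.r p) = T₂.ko.tm p :=
  mt_tm (by simp) g.ko (fun p h => (mem_r g.toGl3).2 (lt_of_lt_of_le (by norm_num)
    (not_lt.1 fun k => (T₂.io p k).not_gt h))) p hp h

theorem ko_l {p : T₁.M} (hp : p ∈ g.l.source) : T.ko.tm (g.l p) ≤ 0 := by
  refine not_lt.1 fun h => ?_
  rcases c with _ | c
  · exact h.false
  obtain ⟨y, hy⟩ := exists_k T.ko h
  have e := tm_k T₂.ko y h
  have := r_ge g.toGl3 le_rfl four_pos (p := Nc.k T₂.ko (y, _))
    (neg_zero.trans_le (not_lt.1 fun k => (T₂.io _ k).not_gt (h.trans_eq e.symm)))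
  have := this.trans_eq (congrArg g.n.tm ((g.ko y _ h (abs_pos.2 h.ne')).trans hy))
  linarith [(mem_lt g.toGl3).1 (g.l.map_source hp)]

theorem ki_r {p : T₂.M} (hp : p ∈ g.r.source) : 0 ≤ T.ki.tm (g.r p) := by
  refine not_lt.1 fun h => ?_
  rcases a with _ | a
  · exact h.false
  obtain ⟨y, hy⟩ := exists_k T.ki h
  have e := tm_k T₁.ki y h
  have := l_le g.toGl3 le_rfl four_pos (p := Nc.k T₁.ki (y, _)) (T₁.io _ (e.trans_lt h))
  have := (congrArg g.n.tm ((g.ki y _ h (abs_pos.2 h.ne)).trans hy)).ge.trans this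
  linarith [(mem_rt g.toGl3).1 (g.r.map_source hp)]

end cm

/-! ### forms -/

section fm

variable {X X' X'' : M4} (φ : PD X X') {S : Set X.M} {e e' : X.Fm} {w : X'.Fm}

theorem mp_pd : Mp X.I X'.I φ.source univ φ := ⟨fun _ h => (ld_pd φ h).contMDiffAt, mapsTo_univ _ _⟩

theorem md_pd {p : X.M} (h : p ∈ φ.source) : MDifferentiableAt X.I X'.I φ p :=
  (ld_pd φ h).contMDiffAt.mdifferentiableAt (by simp)

theorem eq_psh (h : ∀ q ∈ φ.source, pm X.I X'.I φ w q = e q) (h' : ∀ x ∉ φ.target, w x = 0) : w = psh φ e :=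
  funext fun x => by
    by_cases k : x ∈ φ.target
    · rw [psh, indicator_of_mem k]
      exact ((Dr59.pm_congr_right (h _ (φ.map_target k))).symm.trans
        ((Dr59.pm_comp (md_pd φ (φ.map_target k)) (md_pd φ.symm k)).trans
          (Dr59.pm_of_eventually_id (Mv17.ev_r φ k) _))).symm
    · rw [h' x k, psh, indicator_of_notMem k]

theorem psh_add : psh φ (e + e') = psh φ e + psh φ e' := by rw [psh, Dr59.pm_add, indicator_add']; rfl

theorem psh_smul (r : ℝ) : psh φ (r • e) = r • psh φ e := by rw [psh, Dr59.pm_smul]; exact indicator_const_smul φ.target r _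

theorem psh_zero : psh φ (0 : X.Fm) = 0 := by rw [psh, Dr59.pm_zero, indicator_zero']

theorem psh_sub : psh φ (e - e') = psh φ e - psh φ e' := by rw [psh, Dr59.pm_sub, indicator_sub']; rfl

theorem pm_off {f : X.M → X'.M} {p : X.M} (h : w (f p) = 0) : pm X.I X'.I f w p = 0 := by
  rw [Dr59.pm_apply, h, map_zero]

theorem ip_pd (hp : Pos X.I X'.I φ φ.source X.o X'.o) (h : Cs X.I 2 S e) (hS : S ⊆ φ.source) (c : X'.Fm) :
    X'.ip c (psh φ e) = X.ip (pm X.I X'.I φ c) e :=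
  h.ip_psh φ hS X'.ori X.ori (SameOn.symm (hp.mono hS)) c

/-- the value of a class on a form -/
def pv (d : X.L) (e : X.Fm) : ℝ := X.ip (exists_cur d).choose e

theorem pv_pb {U : Set X.M} (hU : IsOpen U) {f : X.M → X'.M} {d : X.L} {d' : X'.L} (hd : Pb f U d' d)
    {c : X'.Fm} (hc : Cur d' c) (h : Cs X.I 2 U e) : X.ip (pm X.I X'.I f c) e = pv d e :=
  h.ip_coh X.ori ((cur_cl hc).sm.pm ⟨fun y hy => (hd.1 y hy).contMDiffAt, mapsTo_univ _ _⟩)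
    ((cur_cl (exists_cur d).choose_spec).sm.mono (subset_univ _)) (cur_pb hU hd (exists_cur d).choose_spec hc)

theorem pv_eq {d : X.L} {c : X.Fm} (hc : Cur d c) (h : Cs X.I 2 S e) : X.ip c e = pv d e := by
  simpa only [Dr59.pm_id] using pv_pb isOpen_univ pb_id hc (h.mono (subset_univ _))

theorem pv_psh (hp : Pos X.I X'.I φ φ.source X.o X'.o) {d : X.L} {d' : X'.L} (hd : Pb φ φ.source d' d)
    (h : Cs X.I 2 S e) (hS : S ⊆ φ.source) : pv d' (psh φ e) = pv d e :=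
  (ip_pd φ hp h hS _).trans (pv_pb φ.open_source hd (exists_cur d').choose_spec (h.mono hS))

variable (X) in
/-- closed forms with compact support -/
def CF : Submodule ℝ X.Fm where
  carrier := {e | Cs X.I 2 univ e}
  add_mem' := Cs.add
  zero_mem' := Cs.zero
  smul_mem' := fun r _ => Cs.smul r

variable (X) in
/-- the intersection form -/
def B : CF X →ₗ[ℝ] CF X →ₗ[ℝ] ℝ := LinearMap.mk₂ ℝ (fun y z => X.ip y z)
  (fun y y' z => Cs.ip_add z.2 X.ori y.2.cl.sm y'.2.cl.sm) (fun r _ _ => Dr59.ip_smul r _ _ _)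
  (fun y z z' => Dr59.ip_add_right z.2 z'.2 X.ori y.2.cl.sm) fun r _ _ => Dr59.ip_smul_right r _ _ _

theorem B_comm (y z : CF X) : B X y z = B X z y := Dr59.ip_comm y.2.cl.dg _

/-- the value of a class -/
def V (d : X.L) : CF X →ₗ[ℝ] ℝ where
  toFun y := pv d y
  map_add' y z := Dr59.ip_add_right y.2 z.2 X.ori (cur_cl (exists_cur d).choose_spec).sm
  map_smul' r _ := Dr59.ip_smul_right r _ _ _

theorem B_cur {d : X.L} {c : CF X} (h : Cur d c.1) (y : CF X) : B X c y = V d y := pv_eq h y.2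

/-- pull-back by a diffeomorphism -/
def pl (ψ : X.Dif X') : CF X' →ₗ[ℝ] CF X where
  toFun y := ⟨pm X.I X'.I ψ.φ y, by
    have := (ψ.symm.cs y.2).mono (subset_univ _)
    rwa [ψ.symm.ps_eq] at this⟩
  map_add' _ _ := Subtype.ext (Dr59.pm_add _ _ _)
  map_smul' _ _ := Subtype.ext (Dr59.pm_smul _ _ _)

theorem B_pl (ψ : X.Dif X') (y z : CF X') : B X (pl ψ y) (pl ψ z) = B X' y z := by
  have := ψ.ip_ps (pl ψ z).2 y
  rw [show ψ.ps (pl ψ z).1 = z from (eq_psh ψ.φ.toPartialDiffeomorph (fun _ _ => rfl) fun _ h => (h trivial).elim).symm]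
    at this
  exact this.symm

theorem V_pl (ψ : X.Dif X') {d : X.L} {d' : X'.L} (h : Pb ψ.φ univ d' d) (y : CF X') : V d (pl ψ y) = V d' y := by
  have := pv_psh ψ.φ.toPartialDiffeomorph ψ.pos h (pl ψ y).2 (subset_univ _)
  exact this.symm.trans (congrArg (pv d')
    (eq_psh ψ.φ.toPartialDiffeomorph (w := y) (fun _ _ => rfl) fun _ h => (h trivial).elim).symm)

theorem ps_of {d : X.L} (c η : CF X) (h : Cur d c.1) (h' : 0 < B X (η - c) (η - c)) : X.Ps d η := ⟨c, c.2, h, h'⟩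

theorem of_ps {d : X.L} {η : CF X} :
    X.Ps d η → ∃ c : CF X, Cur d c.1 ∧ 0 < B X (η - c) (η - c) := fun ⟨c, h1, h2, h3⟩ => ⟨⟨c, h1⟩, h2, h3⟩

end fm

section gl

variable {A : O3} {X X₁ X₂ : M4} {k₁ : Nc A X₁ (Ioi 0)} {k₂ : Nc A X₂ (Iio 0)} (g : Gl3 k₁ k₂ X)
  {e₁ : X₁.Fm} {e₂ : X₂.Fm}

theorem sub_l : k₁.tm ⁻¹' Iic 1 ⊆ g.l.source := fun _ h => (mem_l g).2 (lt_of_le_of_lt h (by norm_num))

theorem sub_r : k₂.tm ⁻¹' Ici (-1) ⊆ g.r.source := fun _ h => (mem_r g).2 (lt_of_lt_of_le (by norm_num) h)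

theorem cs_l (h : Cs X₁.I 2 (k₁.tm ⁻¹' Iic 1) e₁) : Cs X.I 2 (g.n.tm ⁻¹' Iic 1) (psh g.l e₁) :=
  (h.psh g.l (sub_l g)).mono (image_subset_iff.2 fun _ k => l_le g zero_le_one (by norm_num) k)

theorem cs_r (h : Cs X₂.I 2 (k₂.tm ⁻¹' Ici (-1)) e₂) : Cs X.I 2 (g.n.tm ⁻¹' Ici 3) (psh g.r e₂) :=
  (h.psh g.r (sub_r g)).mono (image_subset_iff.2 fun _ k => by
    have := r_ge g zero_le_one (by norm_num) k
    exact le_of_eq_of_le (by norm_num) this)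

theorem fm (h₁ : Cs X₁.I 2 (k₁.tm ⁻¹' Iic 1) e₁) (h₂ : Cs X₂.I 2 (k₂.tm ⁻¹' Ici (-1)) e₂) :
    g.Fm (psh g.l e₁ + psh g.r e₂) e₁ e₂ := by
  refine ⟨fun p hp => ?_, fun p hp => ?_⟩
  · have m := (mem_l g).2 (hp.trans (by norm_num))
    rw [Dr59.pm_add, Pi.add_apply, Dr59.pm_psh g.l m, pm_off ((cs_r g h₂).eq_zero fun k => ?_), add_zero]
    linarith [tm_l g m (.inr (lt_of_lt_of_le (by norm_num) k)), mem_Ici.1 (mem_preimage.1 k)]
  · have m := (mem_r g).2 (lt_trans (by norm_num) hp)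
    rw [Dr59.pm_add, Pi.add_apply, Dr59.pm_psh g.r m, pm_off ((cs_l g h₁).eq_zero fun k => ?_), zero_add]
    linarith [tm_r g m (.inr (lt_of_le_of_lt k (by norm_num))), mem_Iic.1 (mem_preimage.1 k)]

theorem ip_lr (h₁ : Cs X₁.I 2 (k₁.tm ⁻¹' Iic 1) e₁) (h₂ : Cs X₂.I 2 (k₂.tm ⁻¹' Ici (-1)) e₂) :
    X.ip (psh g.l e₁) (psh g.r e₂) = 0 :=
  (cs_l g h₁).ip_disj (cs_r g h₂) (disjoint_left.2 fun _ h k => by linarith [mem_Iic.1 (mem_preimage.1 h), mem_Ici.1 (mem_preimage.1 k)])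

theorem ip_ll {e : X₁.Fm} (h₁ : Cs X₁.I 2 (k₁.tm ⁻¹' Iic 1) e₁) : X.ip (psh g.l e) (psh g.l e₁) = X₁.ip e e₁ :=
  (ip_pd g.l g.pl h₁ (sub_l g) _).trans (h₁.ip_congr fun _ h => Dr59.pm_psh g.l (sub_l g h) e)

theorem ip_rr {e : X₂.Fm} (h₂ : Cs X₂.I 2 (k₂.tm ⁻¹' Ici (-1)) e₂) : X.ip (psh g.r e) (psh g.r e₂) = X₂.ip e e₂ :=
  (ip_pd g.r g.pr h₂ (sub_r g) _).trans (h₂.ip_congr fun _ h => Dr59.pm_psh g.r (sub_r g h) e)

variable {φ : X.Dif X} {φ₁ : X₁.Dif X₁} {φ₂ : X₂.Dif X₂} {d d' : X.L}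

theorem pb_eqv {X₁ : M4} (l : PD X₁ X) {φ₁ : X₁.Dif X₁} (h : ∀ p ∈ l.source, φ.φ (l p) = l (φ₁.φ p))
    (m : MapsTo φ₁.φ.symm l.source l.source) {c c' : X₁.L} (hd : Pb φ.φ univ d' d) (hc : Pb φ₁.φ univ c' c)
    (k : Pb l l.source d c) : Pb l l.source d' c' :=
  pb_congr (pb_comp (pb_comp hd k (mapsTo_univ _ _)) (pb_mono (pb_symm hc) (subset_univ _)) m) fun _ hp =>
    eventually_of_mem (l.open_source.mem_nhds hp) fun q hq =>
      ((h _ (m hq)).trans (congrArg l (φ₁.φ.apply_symm_apply q))).symm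

theorem pm_eqv {X₁ : M4} (l : PD X₁ X) {φ₁ : X₁.Dif X₁} (h : ∀ p ∈ l.source, φ.φ (l p) = l (φ₁.φ p))
    (m : MapsTo φ₁.φ l.source l.source) (y : X.Fm) {p : X₁.M} (hp : p ∈ l.source) :
    pm X₁.I X.I l (pm X.I X.I φ.φ y) p = pm X₁.I X₁.I φ₁.φ (pm X₁.I X.I l y) p := by
  rw [Dr59.pm_comp (φ.φ.mdifferentiable (by simp) _) (md_pd l hp),
    Dr59.pm_comp (md_pd l (m hp)) (φ₁.φ.mdifferentiable (by simp) _)]
  exact Dr59.pm_congr (eventually_of_mem (l.open_source.mem_nhds hp) h) rfl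

end gl

end Crest.Agent.X212.Pen22
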