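import Crest.Agent.X212.Geo28.Lv

/-!
# Row 212, layer GEO (helper22): the homological data of the pentagons

`CH` : the two spheres of the plumbing, `PH` : a pentagon at a rational homology sphere, `NH` : the pentagon at
the empty vertex.
-/

set_option autoImplicit false
set_option linter.unusedSectionVars false

open Set Filter Topology Function Module
open scoped ContDiff Manifold
open Crest.Agent.R208 Crest.Agent.R208.F
open Crest.Agent.X212.Dr59 (Cs Cl Ex HZ Bd Lat ip pm df psh)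
open Crest.Agent.X212.Rod53 (Z2)
open Crest.Agent.X212.Line51 (ang)

noncomputable section

namespace Crest.Agent.X212.Pen22

open Bor5.T Geo28 Real

/-- the dual of the sphere of a neck `S² × S¹`, times `2 π` -/
def thm (R : R3) {X : M4} {J : Set ℝ} (k : Nc R.toO3 X J) (χ : ℝ → ℝ) : X.Fm :=
  psh k.k (df (IY R.toO3) (fun p => χ p.2) * ang (IY R.toO3) fun p => (R.φ p.1).2)

/-- a step on `[-3, -1]` -/
def Stp (χ : ℝ → ℝ) : Prop := ContDiff ℝ ∞ χ ∧ (∀ t ≤ -3, χ t = 0) ∧ ∀ t, -1 ≤ t → χ t = 1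

/-- the part of the plumbing that is glued in -/
def nU (G : CG) : Set G.N.M := Nc.tm (A := G.R.toO3) G.N.ki ⁻¹' Ioi (-4)

/-- the duals of the two spheres of the plumbing -/
structure CH (G : CG) where
  e : Bool → G.N.Fm
  zr : ∀ s, G.N.Zr (e s)
  ee : ∀ s t, G.N.X.ip (e s) (e t) = if s = t then -1 else 1
  rf : ∀ s y z, Cl G.N.X.I 2 (nU G) y → Cl G.N.X.I 2 (nU G) z →
    G.N.X.ip z (pm G.N.X.I G.N.X.I (G.ρ s).φ y - y) = 2 * G.N.X.ip y (e s) * G.N.X.ip z (e s)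
  hf : ∀ s (x : G.N.L) c, Cur x c → ((G.ρ s).half x ↔ 0 < G.N.X.ip c (e s))
  int : ∀ s (x : G.N.L) c, Cur x c → ∃ n : ℤ, G.N.X.ip c (e s) = 2 * π * n
  inj : ∀ (x x' : G.N.L) c c', Cur x c → Cur x' c' → (∀ s, G.N.X.ip c (e s) = G.N.X.ip c' (e s)) → x = x'
  one : ∃ (x : G.N.L) (c : G.N.Fm), Cur x c ∧ G.N.ki.Cl x G.c0 ∧ G.N.X.ip c (e false) = 2 * π
  sph : ∃ (χ : ℝ → ℝ) (ε : ℝ), Stp χ ∧ (ε = 1 ∨ ε = -1) ∧ ∀ y, Cl G.N.X.I 2 (nU G) y →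
    G.N.X.ip y (thm G.R G.N.ki χ) = ε * (2 * π) * (G.N.X.ip y (e false) + G.N.X.ip y (e true))
  hB : HZ G.B.X.I 2 (univ : Set G.B.M)

/-- alive classes vanish on the sphere; classes with the same restrictions differ by multiples of it -/
structure Rel (G : CG) (H : CH G) : Prop where
  al : ∀ (x : G.N.L) c, Cur x c → G.N.ki.Cl x G.c0 → G.N.X.ip c (H.e false) + G.N.X.ip c (H.e true) = 0
  tor : ∀ {X₁ X : M4} {k₁ : Nc G.R.toO3 X₁ (Ioi 0)} (g : Gl3 k₁ G.N.ki X) k k' l x, g.Rl k l → g.Rr k x →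
    g.Rl k' l → g.Rr k' x → ∃ n : ℤ, (n = 0 → k = k') ∧ ∀ c c' y, Cur k c → Cur k' c' → Cs X.I 2 univ y →
      X.ip c' y = X.ip c y + 4 * π * n * (X.ip y (psh g.r (H.e false)) + X.ip y (psh g.r (H.e true)))

/-- PEN-REL -/
def RelStmt : Prop := ∀ (G : CG) (H : CH G), Rel G H

variable {G : CG} (H : CH G)

/-- the spheres in the pentagon -/
abbrev CH.E {a : Option Q3} {B C : Q3} (P : PG0 G a B C) (s : Bool) : P.X.Fm := psh P.gN.r (H.e s)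

/-- a pentagon at a rational homology sphere -/
structure PH {A B C : Q3} (P : PG0 G (some A) B C) : Prop where
  cyl : ∃ Z : Pm (some A.toO3) (some A.toO3) none, Z.IsCyl ∧ Nonempty (P.X0.Wk Z)
  h1 : HZ P.X.X.I 1 (univ : Set P.X.M)
  bd : Bd P.X.X.I 2 (univ : Set P.X.M) 3
  q1 : ∃ y, Cs P.X1.X.I 2 univ y ∧ P.X1.X.ip y y ≠ 0
  q2 : ∃ y, Cs P.X2.X.I 2 univ y ∧ P.X2.X.ip y y ≠ 0
  q3 : ∃ y, Cs P.X3.X.I 2 univ y ∧ P.X3.X.ip y y ≠ 0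
  ns : ∃ y, Cs P.X.X.I 2 univ y ∧ P.X.X.ip y (H.E P false) + P.X.X.ip y (H.E P true) ≠ 0

/-- `T` is the handle -/
def Hw {τ : Tub} {A B : Q3} {a b : Z2} (f : Fo τ A.toO3 a) (g : Fo τ B.toO3 b)
    (T : Pm (some A.toO3) (some B.toO3) none) : Prop :=
  ∀ (c : Cob A B) w, Hnd c f g → OnC c w → Nonempty (w.pm.Wk T)

/-- the part of `W` off the circle, in `X` -/
def io {B C : Q3} (Z : PG0 G none B C) {W : M4} (φ : W.Dif Z.X0.X) :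
    PartialDiffeomorph W.I Z.X.X.I W.M Z.X.M ∞ :=
  φ.φ.toPartialDiffeomorph.trans (Z.g0.l.symm.trans Z.gN.l)

/-- closed forms that are exact on both sides -/
def Md {B C : Q3} (Z : PG0 G none B C) {W : W4} (φ : (m4 W).Dif Z.X0.X) (α β : ℝ) (y : Z.X.Fm) : Prop :=
  Cl Z.X.X.I 2 univ y ∧ Ex W.X.P.I (W.X.τ ⁻¹' Iio β) (pm W.X.P.I Z.X.X.I (io Z φ) y) ∧
    Ex W.X.P.I (W.X.τ ⁻¹' Ioi α) (pm W.X.P.I Z.X.X.I (io Z φ) y)

/-- the pentagon at the empty vertex -/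
structure NH {S : Scene} {Q : Prd} {R : ℝ} (P : Pent S Q R) (Z : PG0 G none (S.ob P.i) (S.ob P.j)) where
  φ1 : (m4 (S.cap P.C).toW4).Dif Z.X1.X
  ko : Ag atTop (φ1.φ ∘ (S.cap P.C).ko) (Nc.k (A := (S.ob P.i).toO3) Z.X1.ko)
  φ0 : (m4 P.W).Dif Z.X0.X
  α : ℝ
  β : ℝ
  hα : α ∈ Ico P.α P.β
  hβ : β ∈ Ioc P.α P.β
  core : ∀ p, P.W.X.τ p < β ∨ α < P.W.X.τ p →
    φ0.φ p ∈ Z.g0.l.target ∧ Z.g0.l.symm (φ0.φ p) ∈ Z.L.Core
  l : ∀ p, P.W.X.τ p < β → φ1.φ (P.l p) ∈ Z.X1.Core ∧ io Z φ0 p = Z.gB.l (φ1.φ (P.l p))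
  r : ∀ p, α < P.W.X.τ p → ∃ q ∈ Z.X3.Core, io Z φ0 p = Z.gC.r q
  /-- the form on the classes of the middle part has rank one -/
  mid : ∀ y z, Md Z φ0 α β y → Md Z φ0 α β z →
    Z.X.X.ip y z = -(Z.X.X.ip y (H.E Z false) * Z.X.X.ip z (H.E Z false))

/-- PEN-CUT: the cuts of the rod manifolds of the words `a b e a` -/
def CutStmt : Prop := ∃ (G : CG) (H : CH G),
  (∀ (τ : Tub) (a b e : Z2) (A B C : Q3) (f : Fo τ A.toO3 a) (g : Fo τ B.toO3 b) (h : Fo τ C.toO3 e), T3 τ a b e →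
    ∃ P : PG0 G (some A) B C, PH H P ∧ Hw f g P.X1 ∧ Hw g h P.X2 ∧ Hw h f P.X3) ∧
  ∀ (S : Scene) (Q : Prd) (R : ℝ) (P : Pent S Q R), ∃ Z : PG0 G none (S.ob P.i) (S.ob P.j), Nonempty (NH H P Z)

/-- PEN-MOD: a triple of rational homology spheres with given slopes -/
def ModStmt : Prop := ∃ (τ : Tub) (A B C : Q3), τ.σ = -1 ∧ Nonempty (Fo τ A.toO3 (1, 0)) ∧
  Nonempty (Fo τ B.toO3 (1, 1)) ∧ Nonempty (Fo τ C.toO3 (0, 1)) ∧ Nonempty A.L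

/-- PEN-AG -/
def AgStmt : Prop := ∀ (a b : Option O3) (T T' : Pm a b none) (φ : T.Wk T'), ∃ ψ : T.Iso T',
  (∀ (d : T.L) (d' : T'.L), Pb φ.φ univ d' d → Pb ψ.φ univ d' d) ∧ ∀ η' y, Cs T'.X.I 2 univ η' →
    Cl T.X.I 2 univ y → T.X.ip y (pm T.X.I T'.X.I ψ.φ η') = T.X.ip y (pm T.X.I T'.X.I φ.φ η')

end Crest.Agent.X212.Pen22
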