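import Crest.Agent.X212.Pen22.Gl
import Crest.Agent.X212.Mv17.Cl

/-!
# Row 212, layer GEO (helper22): classes, reflections and forms of a pentagon
-/

set_option autoImplicit false
set_option linter.unusedSectionVars false

open Set Filter Topology Function Module
open scoped ContDiff Manifold
open Crest.Agent.R208 Crest.Agent.R208.F
open Crest.Agent.X212.Dr59 (Cs Cl Ex HZ Bd Lat Mp ip pm psh)
open Crest.Agent.X212.Orx52 (Pos)
open Crest.Agent.X212.Rod53 (ld_pd)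
open Crest.Agent.X212.Rfl19 Crest.Agent.X212.Nvg56 Crest.Agent.X212.Mv17

noncomputable section

namespace Crest.Agent.X212.Pen22

open Bor5.T Geo28

/-- two classes agree on `O` -/
def Eo {X : M4} (O : Set X.M) (d d' : X.L) : Prop := d.res (subset_univ O) = d'.res (subset_univ O)

theorem eo_of_pb {X X' : M4} {f : X.M → X'.M} {O : Set X.M} {d : X'.L} {s s' : X.L} (h : Pb f O d s)
    (h' : Pb f O d s') : Eo O s s' := h.2.symm.trans h'.2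

theorem Eo.eq {X : M4} {d d' : X.L} (h : Eo univ d d') : d = d' :=
  have r : ∀ c : X.L, c.res (subset_univ _) = c := fun c => Quot.inductionOn c fun _ => rfl
  (r d).symm.trans (h.trans (r d'))

theorem Eo.pb {X X' : M4} {f : X.M → X'.M} {O : Set X.M} {d : X'.L} {s s' : X.L} (e : Eo O s s')
    (h : Pb f O d s) : Pb f O d s' := ⟨h.1, h.2.trans e⟩

/-- classes that agree on a part of a neck agree on the neck -/
theorem Eo.trunc {A : O3} {X : M4} {J J' : Set ℝ} {O O' : Set X.M} {d d' : X.L} (e : Eo O d d')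
    (φ : PartialDiffeomorph (IY A) X.I (A.Y.M × ℝ) X.M ∞) (src : φ.source = Prod.snd ⁻¹' J)
    (hp : ∀ z ∈ φ.source, φ z ∈ O ↔ z.2 ∈ J') (h0 : J' ⊆ J) (hO : IsOpen O) (hJ : IsOpen J) (hc : OrdConnected J)
    (hJ' : IsOpen J') (hc' : OrdConnected J') (hn : J'.Nonempty) (h : O' = O ∪ φ.target) : Eo O' d d' := by
  have l := fun z (hz : z ∈ Prod.snd ⁻¹' J) => ld_pd φ (src.ge hz)
  obtain ⟨s, k⟩ := end_ex hJ hc (hn.mono h0) l d
  have k' := pb_ext hJ hc hJ' h0 hn l (pb_of_res e (fun z hz => (hp z (src.ge (h0 hz))).2 hz)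
    (pb_mono k (preimage_mono h0)))
  exact cls_inj hO φ.open_target h.le (spl_end φ src hp h0 hO hJ' hc' hn) (subset_union_left.trans h.ge)
    (subset_union_right.trans h.ge) ((res_res _ _ _).trans (e.trans (res_res _ _ _).symm))
    ((res_res _ _ _).trans ((res_of_pb φ (src ▸ k) (src ▸ k')).trans (res_res _ _ _).symm))

section gl

variable {A : O3} {X X₁ X₂ : M4} {k₁ : Nc A X₁ (Ioi 0)} {k₂ : Nc A X₂ (Iio 0)} (g : Gl3 k₁ k₂ X)
  {d : X.L} {d₁ : X₁.L} {d₂ : X₂.L}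

/-- the class on the left piece -/
def rl (d : X.L) : X₁.L := (g3_l g d).exists.choose

/-- the class on the right piece -/
def rr (d : X.L) : X₂.L := (g3_r g d).exists.choose

theorem rl_spec (d : X.L) : g.Rl d (rl g d) := (g3_l g d).exists.choose_spec

theorem rr_spec (d : X.L) : g.Rr d (rr g d) := (g3_r g d).exists.choose_spec

theorem rl_eq (h : g.Rl d d₁) : rl g d = d₁ := (g3_l g d).unique (rl_spec g d) h

theorem rr_eq (h : g.Rr d d₂) : rr g d = d₂ := (g3_r g d).unique (rr_spec g d) h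

theorem cl_lr (h : g.Rl d d₁) (h' : g.Rr d d₂) {s : A.L} : k₁.Cl d₁ s ↔ k₂.Cl d₂ s :=
  (g3_nl g h).trans (g3_nr g h').symm

theorem img_l {r : ℝ} (h0 : 0 < r) (h4 : r ≤ 4) : g.l '' (k₁.tm ⁻¹' Iio r) = g.n.tm ⁻¹' Iio r := by
  refine Subset.antisymm (image_subset_iff.2 fun p hp => show g.n.tm (g.l p) < r from lt_of_not_ge fun k => ?_) fun x hx => ?_
  · linarith [tm_l g ((mem_l g).2 (lt_of_lt_of_le hp h4)) (.inr (h0.trans_le k)), mem_Iio.1 (mem_preimage.1 hp)]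
  · have m := (mem_lt g).2 (lt_of_lt_of_le hx h4)
    refine ⟨_, show k₁.tm (g.l.toPartialEquiv.symm x) < r from lt_of_not_ge fun k => ?_, g.l.right_inv m⟩
    linarith [tm_l g (g.l.map_target m) (.inl (h0.trans_le k)), congrArg g.n.tm (g.l.right_inv m),
      mem_Iio.1 (mem_preimage.1 hx)]

theorem img_r {r : ℝ} (h0 : 0 < r) (h4 : r ≤ 4) : g.r '' (k₂.tm ⁻¹' Ioi (-r)) = g.n.tm ⁻¹' Ioi (4 - r) := by
  refine Subset.antisymm (image_subset_iff.2 fun p hp => show 4 - r < g.n.tm (g.r p) from lt_of_not_ge fun k => ?_) fun x hx => ?_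
  · linarith [tm_r g ((mem_r g).2 (lt_of_le_of_lt (neg_le_neg h4) hp)) (.inr (by linarith)),
      mem_Ioi.1 (mem_preimage.1 hp)]
  · have m := (mem_rt g).2 (lt_of_le_of_lt (sub_nonneg.2 h4) hx)
    refine ⟨_, show -r < k₂.tm (g.r.toPartialEquiv.symm x) from lt_of_not_ge fun k => ?_, g.r.right_inv m⟩
    linarith [tm_r g (g.r.map_target m) (.inl (by linarith)), congrArg g.n.tm (g.r.right_inv m),
      mem_Ioi.1 (mem_preimage.1 hx)]

/-- curvature forms glue along a neck with `b₁ = 0` -/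
theorem cur_fm (hA : HZ A.Y.I 1 (univ : Set A.Y.M)) (h₁ : g.Rl d d₁) (h₂ : g.Rr d d₂) {c c₁ c₂} (e₁ : Cur d₁ c₁)
    (e₂ : Cur d₂ c₂) (hc : Cl X.I 2 univ c) (f : g.Fm c c₁ c₂) : Cur d c := by
  obtain ⟨c₀, e₀⟩ := exists_cur d
  have s₁ : k₁.tm ⁻¹' Iio 3 ⊆ g.l.source := fun _ h => (mem_l g).2 (lt_trans h (by norm_num))
  have s₂ : k₂.tm ⁻¹' Ioi (-3) ⊆ g.r.source := fun _ h => (mem_r g).2 (lt_trans (by norm_num) h)
  have a := Dr59.ex_pd (a := c - c₀) g.l (isOpen_Iio.preimage k₁.cont) s₁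
    (((cur_pb g.l.open_source h₁ e₁ e₀).symm.mono s₁).congr fun p hp => by
      rw [Dr59.pm_sub, Pi.sub_apply, f.1 p hp, Pi.sub_apply])
  have b := Dr59.ex_pd (a := c - c₀) g.r (isOpen_Ioi.preimage k₂.cont) s₂
    (((cur_pb g.r.open_source h₂ e₂ e₀).symm.mono s₂).congr fun p hp => by
      rw [Dr59.pm_sub, Pi.sub_apply, f.2 p hp, Pi.sub_apply])
  rw [img_l g three_pos (by norm_num)] at a
  rw [img_r g three_pos (by norm_num)] at b
  have u : g.n.tm ⁻¹' Iio 3 ∪ g.n.tm ⁻¹' Ioi (4 - 3) = univ := by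
    rw [← preimage_union, Iio_union_Ioi_of_lt (by norm_num), preimage_univ]
  exact cur_of_ex e₀ hc (u ▸ Dr59.ex_union (isOpen_Iio.preimage g.n.cont) (isOpen_Ioi.preimage g.n.cont)
    (nc_hz g.n (J' := Iio 3 ∩ Ioi (4 - 3)) hA (isOpen_Iio.inter isOpen_Ioi) (ordConnected_Iio.inter ordConnected_Ioi)
      fun _ h => ⟨lt_trans (by norm_num) h.2, lt_trans h.1 (by norm_num)⟩)
    ((hc.sub (cur_cl e₀)).mono (subset_univ _)) a b)

end gl

/-! ### forms up to depth one -/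

section fo

variable {a b c x : Option O3}

/-- closed forms that vanish beyond depth one -/
def FO (T : Pm a b x) : Submodule ℝ T.Fm where
  carrier := {e | T.Fo e}
  add_mem' := Cs.add
  zero_mem' := Cs.zero
  smul_mem' := fun r _ => Cs.smul r

/-- the inclusion -/
def cf {T : Pm a b x} : FO T →ₗ[ℝ] CF T.X := Submodule.inclusion fun _ h => Cs.mono h (subset_univ _)

theorem fo_i {B : O3} {T : Pm (some B) b x} (y : FO T) : Cs T.X.I 2 (Nc.tm T.ki ⁻¹' Ici (-1)) y.1 :=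
  Cs.mono y.2 fun _ h => h.1

theorem fo_o {B : O3} {T : Pm a (some B) x} (y : FO T) : Cs T.X.I 2 (Nc.tm T.ko ⁻¹' Iic 1) y.1 :=
  Cs.mono y.2 fun _ h => h.2.1

theorem fo_3 {B : O3} {T : Pm a b (some B)} (y : FO T) : Cs T.X.I 2 (Nc.tm T.k3 ⁻¹' Iic 1) y.1 :=
  Cs.mono y.2 fun _ h => h.2.2

variable {B : O3} {T₁ : Pm a (some B) none} {T₂ : Pm (some B) c none} {T : Pm a c none} (g : Cm T₁ T₂ T)

/-- forms on the left piece -/
def pL : FO T₁ →ₗ[ℝ] FO T where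
  toFun y := ⟨psh g.l y.1, (Cs.psh g.l y.2 fun _ h => sub_l g.toGl3 h.2.1).mono (image_subset_iff.2 fun _ h =>
    have m := sub_l g.toGl3 h.2.1
    ⟨le_of_not_gt fun k => (h.1.trans_eq (ki_l g m (.inr (k.trans (by norm_num)))).symm).not_gt k,
      (ko_l g m).trans zero_le_one, zero_le_one⟩)⟩
  map_add' _ _ := Subtype.ext (psh_add _)
  map_smul' _ _ := Subtype.ext (psh_smul _ _)

/-- forms on the right piece -/
def pR : FO T₂ →ₗ[ℝ] FO T where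
  toFun y := ⟨psh g.r y.1, (Cs.psh g.r y.2 fun _ h => sub_r g.toGl3 h.1).mono (image_subset_iff.2 fun _ h =>
    have m := sub_r g.toGl3 h.1
    ⟨le_trans (by norm_num) (ki_r g m),
      le_of_not_gt fun k => ((ko_r g m (.inr (one_pos.trans k))).trans_le h.2.1).not_gt k, zero_le_one⟩)⟩
  map_add' _ _ := Subtype.ext (psh_add _)
  map_smul' _ _ := Subtype.ext (psh_smul _ _)

theorem B_LL (y z : FO T₁) : Pen22.B T.X (cf (pL g y)) (cf (pL g z)) = Pen22.B T₁.X (cf y) (cf z) :=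
  ip_ll g.toGl3 (fo_o z)

theorem B_RR (y z : FO T₂) : Pen22.B T.X (cf (pR g y)) (cf (pR g z)) = Pen22.B T₂.X (cf y) (cf z) :=
  ip_rr g.toGl3 (fo_i z)

theorem B_LR (y : FO T₁) (z : FO T₂) : Pen22.B T.X (cf (pL g y)) (cf (pR g z)) = 0 :=
  ip_lr g.toGl3 (fo_o y) (fo_i z)

theorem V_L {d d₁} (h : g.Rl d d₁) (y : FO T₁) : V d (cf (pL g y)) = V d₁ (cf y) :=
  pv_psh g.l g.pl h (fo_o y) (sub_l g.toGl3)

theorem V_R {d d₂} (h : g.Rr d d₂) (y : FO T₂) : V d (cf (pR g y)) = V d₂ (cf y) :=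
  pv_psh g.r g.pr h (fo_i y) (sub_r g.toGl3)

theorem fm_LR (y : FO T₁) (z : FO T₂) : g.Fm (pL g y + pR g z).1 y.1 z.1 := fm g.toGl3 (fo_o y) (fo_i z)

theorem cur_LR (hB : HZ B.Y.I 1 (univ : Set B.Y.M)) {d d₁ d₂} (h₁ : g.Rl d d₁) (h₂ : g.Rr d d₂) {y : FO T₁}
    {z : FO T₂} (e₁ : Cur d₁ y.1) (e₂ : Cur d₂ z.1) : Cur d (pL g y + pR g z).1 :=
  cur_fm g.toGl3 hB h₁ h₂ e₁ e₂ (Cs.cl (pL g y + pR g z).2) (fm_LR g y z)

theorem ki_cl {d d₁} (h : g.Rl d d₁) (s : LO a) : T₁.ki.Cl d₁ s ↔ T.ki.Cl d s :=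
  clsStmt.agi a _ _ g.l _ _ _ s g.l.open_source ⟨0, fun p k => (mem_l g.toGl3).2 ((T₁.io p k).trans_lt four_pos)⟩
    (by
      rcases a with _ | a
      exacts [trivial, ag_of_eq ((eventually_lt_atBot 0).mono fun t ht y => g.ki y t ht (abs_pos.2 ht.ne))]) h

end fo

/-- a curvature form that vanishes beyond depth one -/
def cu {a b : Option Q3} {T : Pm (vo a) (vo b) none} (d : T.L) : FO T :=
  ⟨(pm_cur a b T d).choose, (pm_cur a b T d).choose_spec.2⟩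

theorem cu_spec {a b : Option Q3} {T : Pm (vo a) (vo b) none} (d : T.L) : Cur d (cu d).1 :=
  (pm_cur a b T d).choose_spec.1

theorem fin_of (H : Lvs) (a b : Option Q3) (T : Pm (vo a) (vo b) none) (S : Set T.L) : T.Fin S := by
  classical
  obtain ⟨D, k1, k2⟩ := H.fin a b T
  choose y y1 y0 y2 using fun x : D => H.pin _ _ _ T x (k1 _ x.2)
  refine ⟨Finset.univ.image y, fun e he => ?_, fun C => (k2 C).subset fun d ⟨_, c, hc, h⟩ => ⟨trivial, c, hc, fun x hx => ?_⟩⟩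
  · obtain ⟨x, -, rfl⟩ := Finset.mem_image.1 he
    exact y1 x
  · exact y2 ⟨x, hx⟩ c (cur_cl hc) ▸ h _ (Finset.mem_image_of_mem _ (Finset.mem_univ _))

/-! ### reflections -/

section rf

variable {a b : Option O3} {T : Pm a b none} (ρ : Rf T)

theorem cpt_core {x} (T : Pm a b x) : IsCompact T.Core := by
  have := T.cpt 0
  rwa [neg_zero] at this

theorem rf_symm {S : Set T.M} (h : T.Core ⊆ S) : MapsTo ρ.φ.symm S S := fun p hp =>
  (em (ρ.φ.symm p ∈ T.Core)).elim (@h _) fun k => ((ρ.id _ k).symm.trans (ρ.φ.apply_symm_apply p)).symm ▸ hp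

theorem rf_maps {S : Set T.M} (h : T.Core ⊆ S) : MapsTo ρ.φ S S := fun p hp =>
  (em (ρ.φ p ∈ T.Core)).elim (@h _) fun k => (ρ.φ.injective (ρ.id _ k)).symm ▸ hp

theorem rf_off {p : T.M} (h : p ∉ T.Core) (y : T.Fm) : pm T.X.I T.X.I ρ.φ y p = y p :=
  Dr59.pm_of_eventually_id (eventually_of_mem ((cpt_core T).isClosed.isOpen_compl.mem_nhds h) ρ.id) y

/-- pull-back by a reflection -/
def rfo : FO T →ₗ[ℝ] FO T where
  toFun y := ⟨pm T.X.I T.X.I ρ.φ y.1, (pl ρ.toDif (cf y)).2.cl, (pl ρ.toDif (cf y)).2.hc,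
    closure_minimal (fun p hp => by_contra fun k => hp ((rf_off ρ (fun m => k
      ⟨le_trans (by norm_num) m.1, m.2.1.trans zero_le_one, m.2.2.trans zero_le_one⟩) _).trans (Cs.eq_zero y.2 k)))
      (T.cpt 1).isClosed⟩
  map_add' _ _ := Subtype.ext (Dr59.pm_add _ _ _)
  map_smul' _ _ := Subtype.ext (Dr59.pm_smul _ _ _)

theorem cf_rfo (y : FO T) : cf (rfo ρ y) = pl ρ.toDif (cf y) := rfl

theorem rf_ki (d : T.L) (s : LO a) : T.ki.Cl d s ↔ T.ki.Cl (ρ.r d) s :=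
  clsStmt.agi a _ _ ρ.φ _ _ _ s isOpen_univ ⟨0, fun _ _ => trivial⟩ (Ec.ag_in (cpt_core T) ρ.id _) (ρ.pb d)

theorem rf_ko (d : T.L) (s : LO b) : T.ko.Cl d s ↔ T.ko.Cl (ρ.r d) s :=
  clsStmt.ago b _ _ ρ.φ _ _ _ s isOpen_univ ⟨0, fun _ _ => trivial⟩ (Ec.ag_out (cpt_core T) ρ.id _) (ρ.pb d)

theorem V_r (d : T.L) (y : CF T.X) : V (ρ.r d) y = V d (pl ρ.toDif y) := (V_pl ρ.toDif (ρ.pb d) y).symm

/-- a map that is fixed by the reflection -/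
theorem pb_fix {X : M4} {f : X.M → T.M} {O : Set X.M} (hO : IsOpen O) (h : ∀ p ∈ O, ρ.φ (f p) = f p)
    {d : T.L} {s : X.L}
    (k : Pb f O d s) : Pb f O (ρ.r d) s :=
  pb_congr (pb_comp (ρ.pb d) k (mapsTo_univ _ _)) fun _ hp => eventually_of_mem (hO.mem_nhds hp) fun q hq => (h q hq).symm

end rf

/-! ### the pentagon -/

section pg

variable {G : CG} {a : Option Q3} {B C : Q3} (Z : PG0 G a B C) {k : Z.X.L} {j : Z.X12.L} {j' : Z.X23.L}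

theorem core_o {a x : Option O3} {B : O3} {T : Pm a (some B) x} {X₂ X : M4} {k₂} (g : Gl3 (A := B) (X₂ := X₂) T.ko k₂ X) :
    T.Core ⊆ g.l.source := fun _ h => (mem_l g).2 (h.2.1.trans_lt four_pos)

theorem core_i {b x : Option O3} {B : O3} {T : Pm (some B) b x} {X₁ X : M4} {k₁} (g : Gl3 (A := B) (X₁ := X₁) k₁ T.ki X) :
    T.Core ⊆ g.r.source := fun _ h => (mem_r g).2 (lt_of_lt_of_le (by norm_num) h.1)

theorem as1 {d} (h : Z.gC.Rl k j) (h' : Z.g12.Rl j d) : Z.gB.Rl k d :=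
  have e : Z.gB.l.source = Z.g12.l.source := Z.gB.ls.trans Z.g12.ls.symm
  pb_mono (pb_congr (pb_comp h h' fun _ m => (mem_l Z.gC.toGl3).2 ((ko_l Z.g12 m).trans_lt four_pos)) fun _ hp =>
    eventually_of_mem (Z.g12.l.open_source.mem_nhds hp) fun q hq => (Z.as1 q hq).symm) e.le

theorem as3 {d} (h : Z.gB.Rr k j') (h' : Z.g23.Rr j' d) : Z.gC.Rr k d :=
  have e : Z.gC.r.source = Z.g23.r.source := Z.gC.rs.trans Z.g23.rs.symm
  pb_mono (pb_congr (pb_comp h h' fun _ m => (mem_r Z.gB.toGl3).2 (lt_of_lt_of_le (by norm_num) (ki_r Z.g23 m)))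
    fun _ hp => eventually_of_mem (Z.g23.r.open_source.mem_nhds hp) fun q hq => (Z.as3 q hq).symm) e.le

theorem as2 {d d'} (h₁ : Z.gC.Rl k j) (h₂ : Z.g12.Rr j d) (h₃ : Z.gB.Rr k j') (h₄ : Z.g23.Rl j' d') : d = d' := by
  have o := Z.g12.r.open_source.inter Z.g23.l.open_source
  have e₁ := pb_comp h₁ (pb_mono h₂ (inter_subset_left (t := Z.g23.l.source))) fun p m =>
    (mem_l Z.gC.toGl3).2 (lt_of_not_ge fun e =>
      ((ko_r Z.g12 m.1 (.inr (four_pos.trans_le e))).trans_lt ((mem_l Z.g23.toGl3).1 m.2)).not_ge e)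
  have e₂ := pb_comp h₃ (pb_mono h₄ (inter_subset_right (s := Z.g12.r.source))) fun p m =>
    (mem_r Z.gB.toGl3).2 (lt_of_not_ge fun e =>
      (((mem_r Z.g12.toGl3).1 m.1).trans_eq (ki_l Z.g23 m.2 (.inr (e.trans_lt (by norm_num)))).symm).not_ge e)
  have e := eo_of_pb e₁ (pb_congr e₂ fun _ hp => eventually_of_mem (o.mem_nhds hp) fun q hq => Z.as2 q hq.1 hq.2)
  have e' := e.trunc (O' := Z.g23.l.source) (J' := Ioo (-4) 0) (Nc.k Z.X2.ki) (nc_src _) (fun z hz => ?_) Ioo_subset_Iio_self o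
    isOpen_Iio ordConnected_Iio isOpen_Ioo ordConnected_Ioo ⟨-1, by norm_num, by norm_num⟩ ?_
  · refine (e'.trunc (J' := Ioo 0 4) (Nc.k Z.X2.ko) (nc_src _) (fun z hz => ?_) Ioo_subset_Ioi_self Z.g23.l.open_source
      isOpen_Ioi ordConnected_Ioi isOpen_Ioo ordConnected_Ioo ⟨1, by norm_num, by norm_num⟩ ?_).eq
    · have t := Nc.tmk Z.X2.ko z hz
      exact (mem_l Z.g23.toGl3).trans ⟨fun m => ⟨(nc_src _).le hz, t ▸ m⟩, fun m => t.trans_lt m.2⟩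
    · exact (eq_univ_of_forall fun p => (lt_or_ge (Nc.tm Z.X2.ko p) 4).imp (mem_l Z.g23.toGl3).2 fun m =>
        (Nc.tgt Z.X2.ko).ge (four_pos.trans_le m)).symm
  · have t := Nc.tmk Z.X2.ki z hz
    have n : z.2 < 0 := (nc_src _).le hz
    exact ⟨fun m => ⟨((mem_r Z.g12.toGl3).1 m.1).trans_eq t, n⟩, fun m => ⟨(mem_r Z.g12.toGl3).2 (m.1.trans_eq t.symm),
      (mem_l Z.g23.toGl3).2 ((Z.X2.io _ (t.trans_lt n)).trans_lt four_pos)⟩⟩
  · refine Subset.antisymm (fun p m => (lt_or_ge (-4) (Nc.tm Z.X2.ki p)).imp (fun e => ⟨(mem_r Z.g12.toGl3).2 e, m⟩)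
      fun e => (Nc.tgt Z.X2.ki).ge (e.trans_lt (by norm_num))) (union_subset inter_subset_right fun p m => ?_)
    exact (mem_l Z.g23.toGl3).2 ((Z.X2.io _ ((Nc.tgt Z.X2.ki).le m)).trans_lt four_pos)

theorem ρ0_l (h : Z.gC.Rl k j) : Z.gC.Rl ((Z.ρ false).r k) (Z.ρ12.r j) :=
  pb_eqv Z.gC.l Z.mC.1 (rf_symm _ (core_o Z.gC.toGl3)) ((Z.ρ false).pb k) (Z.ρ12.pb j) h

theorem ρ0_r {d} (h : Z.gC.Rr k d) : Z.gC.Rr ((Z.ρ false).r k) d := pb_fix _ Z.gC.r.open_source Z.mC.2 h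

theorem ρ1_l {d} (h : Z.gB.Rl k d) : Z.gB.Rl ((Z.ρ true).r k) d := pb_fix _ Z.gB.l.open_source Z.mB.1 h

theorem ρ1_r (h : Z.gB.Rr k j') : Z.gB.Rr ((Z.ρ true).r k) (Z.ρ23.r j') :=
  pb_eqv Z.gB.r Z.mB.2 (rf_symm _ (core_i Z.gB.toGl3)) ((Z.ρ true).pb k) (Z.ρ23.pb j') h

theorem ρ_L (s : Bool) {l} (h : Z.gN.Rl k l) : Z.gN.Rl ((Z.ρ s).r k) l := pb_fix _ Z.gN.l.open_source (Z.mN s).1 h

theorem ρ_N (s : Bool) {x} (h : Z.gN.Rr k x) : Z.gN.Rr ((Z.ρ s).r k) ((G.ρ s).r x) :=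
  pb_eqv Z.gN.r (Z.mN s).2 (rf_symm _ (core_i Z.gN.toGl3)) ((Z.ρ s).pb k) ((G.ρ s).pb x) h

/-- the class on the first piece -/
def r1 (k : Z.X.L) : Z.X1.L := rl Z.g12.toGl3 (rl Z.gC.toGl3 k)

/-- the class on the second piece -/
def r2 (k : Z.X.L) : Z.X2.L := rr Z.g12.toGl3 (rl Z.gC.toGl3 k)

/-- the class on the third piece -/
def r3 (k : Z.X.L) : Z.X3.L := rr Z.gC.toGl3 k

theorem r1_B (k : Z.X.L) : Z.gB.Rl k (r1 Z k) := as1 Z (rl_spec _ k) (rl_spec _ _)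

theorem r2_B (h : Z.gB.Rr k j') : Z.g23.Rl j' (r2 Z k) :=
  (congrArg (Z.g23.Rl j') (as2 Z (rl_spec _ k) (rr_spec _ _) h (rl_spec _ _))).mpr (rl_spec _ _)

theorem r3_B (h : Z.gB.Rr k j') : Z.g23.Rr j' (r3 Z k) :=
  (congrArg (Z.g23.Rr j') (rr_eq _ (as3 Z h (rr_spec _ _)))).mpr (rr_spec _ _)

theorem r_C {d₁ d₂ d₃} (h : Z.gC.Rl k j) (h₁ : Z.g12.Rl j d₁) (h₂ : Z.g12.Rr j d₂) (h₃ : Z.gC.Rr k d₃) :
    r1 Z k = d₁ ∧ r2 Z k = d₂ ∧ r3 Z k = d₃ :=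
  ⟨(congrArg _ (rl_eq _ h)).trans (rl_eq _ h₁), (congrArg _ (rl_eq _ h)).trans (rr_eq _ h₂), rr_eq _ h₃⟩

theorem r_B {d₁ d₂ d₃} (h : Z.gB.Rr k j') (h₁ : Z.gB.Rl k d₁) (h₂ : Z.g23.Rl j' d₂) (h₃ : Z.g23.Rr j' d₃) :
    r1 Z k = d₁ ∧ r2 Z k = d₂ ∧ r3 Z k = d₃ :=
  ⟨(g3_l _ k).unique (r1_B Z k) h₁, (g3_l _ j').unique (r2_B Z h) h₂, (g3_r _ j').unique (r3_B Z h) h₃⟩

theorem r_inj {k' : Z.X.L} (h₁ : r1 Z k = r1 Z k') (h₂ : r2 Z k = r2 Z k') (h₃ : r3 Z k = r3 Z k') : k = k' :=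
  have e := clsStmt.mvu Z.g12.toGl3 _ _ _ _ (rl_spec _ (rl Z.gC.toGl3 k)) (rr_spec _ _)
    (show Z.g12.Rl _ (r1 Z k) from h₁ ▸ rl_spec _ _) (show Z.g12.Rr _ (r2 Z k) from h₂ ▸ rr_spec _ _)
  clsStmt.mvu Z.gC.toGl3 _ _ _ _ (rl_spec _ k) (rr_spec _ k) (e ▸ rl_spec _ k')
    (show Z.gC.Rr _ (r3 Z k) from h₃ ▸ rr_spec _ _)

end pg

end Crest.Agent.X212.Pen22
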