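import Mathlib

/-!
# Row 212, layer GEO (helper22): the number of wall crossings of a model pentagon is odd
-/

set_option autoImplicit false

namespace Crest.Agent.X212.Pen22

theorem exists_jump (i j : ℤ) : ∃ W : Finset ℤ, (∀ n, n ∈ W ↔ ¬(i ≤ n ↔ j ≤ n)) ∧ (W.card : ℤ) = |i - j| := by
  refine ⟨Finset.Ico (min i j) (max i j), fun n => by rw [Finset.mem_Ico]; omega, ?_⟩
  rw [Int.card_Ico, Int.toNat_of_nonneg (by omega), max_sub_min_eq_abs']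

theorem exists_thr {s : ℝ} (hs : s ≠ 0) (u : ℝ) : ∃ i : ℤ, ∀ n : ℤ, 0 ≤ u + n * s ↔ (i ≤ n ↔ 0 < s) := by
  rcases hs.lt_or_gt with h | h
  · refine ⟨⌊u / -s⌋ + 1, fun n => ?_⟩
    rw [iff_false_intro h.not_gt, iff_false, not_le, Int.lt_add_one_iff, Int.le_floor, le_div_iff₀ (neg_pos.2 h)]
    constructor <;> intro <;> linarith
  · refine ⟨⌈-u / s⌉, fun n => ?_⟩
    rw [iff_true_intro h, iff_true, Int.ceil_le, div_le_iff₀ h]
    constructor <;> intro <;> linarith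

/-- two telescoping sequences of signs -/
theorem odd_walls {s : ℝ} (hs : s ≠ 0) (u w : ℝ) : ∃ W₁ W₂ : Finset ℤ,
    (∀ n : ℤ, n ∈ W₁ ↔ ¬(0 ≤ u + n * s ↔ 0 ≤ w + n * s)) ∧
    (∀ n : ℤ, n ∈ W₂ ↔ ¬(0 ≤ u + n * s ↔ 0 ≤ w - s + n * s)) ∧ Odd (W₁.card + W₂.card) := by
  obtain ⟨i, hi⟩ := exists_thr hs u
  obtain ⟨j, hj⟩ := exists_thr hs w
  obtain ⟨W₁, h1, c1⟩ := exists_jump i j
  obtain ⟨W₂, h2, c2⟩ := exists_jump i (j + 1)
  refine ⟨W₁, W₂, fun n => by rw [h1, hi, hj]; tauto, fun n => ?_, ?_⟩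
  · rw [h2, hi, show w - s + n * s = w + (n - 1 : ℤ) * s by push_cast; ring, hj, le_sub_iff_add_le]
    tauto
  · rw [← Int.odd_coe_nat, Nat.cast_add, c1, c2, Int.odd_add, odd_abs, even_abs, ← sub_sub, Int.even_sub_one,
      Int.not_even_iff_odd]

end Crest.Agent.X212.Pen22
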