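import Crest.Agent.X212.Pen22.Cl

/-!
# Row 212, layer GEO (helper22): the data of a pentagon from classes and forms on the pieces; the two spheres
-/

set_option autoImplicit false
set_option linter.unusedSectionVars false

open Set Filter Topology Function Module
open scoped ContDiff Manifold
open Crest.Agent.R208 Crest.Agent.R208.F
open Crest.Agent.X212.Dr59 (Cs Cl Ex HZ Bd Lat Mp ip pm psh)
open Crest.Agent.X212.Rfl19 Crest.Agent.X212.Nvg56 Crest.Agent.X212.Mv17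

noncomputable section

namespace Crest.Agent.X212.Pen22

open Bor5.T Geo28 Real

/-- the forms of a composition -/
def glu {a c : Option O3} {B : O3} {T₁ : Pm a (some B) none} {T₂ : Pm (some B) c none} {T : Pm a c none}
    (g : Cm T₁ T₂ T) (η₁ : T₁.L → FO T₁) (η₂ : T₂.L → FO T₂) (d : T.L) : FO T :=
  pL g (η₁ (rl g.toGl3 d)) + pR g (η₂ (rr g.toGl3 d))

theorem glu_fm {a c : Option O3} {B : O3} {T₁ : Pm a (some B) none} {T₂ : Pm (some B) c none} {T : Pm a c none}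
    (g : Cm T₁ T₂ T) (η₁ : T₁.L → FO T₁) (η₂ : T₂.L → FO T₂) (d d₁ d₂) (h₁ : g.Rl d d₁) (h₂ : g.Rr d d₂) :
    g.Fm (glu g η₁ η₂ d).1 (η₁ d₁).1 (η₂ d₂).1 := rl_eq _ h₁ ▸ rr_eq _ h₂ ▸ fm_LR g _ _

section cp

variable {a b : Option O3} {A : O3} {L : Pm a b (some A)} {Q : Pm (some A) none none} {T : Pm a b none}
  (g : Cp3 L Q T)

/-- forms on the piece with three ends -/
def pC : FO L →ₗ[ℝ] CF T.X where
  toFun y := ⟨psh g.l y.1, (cs_l g.toGl3 (fo_3 y)).mono (subset_univ _)⟩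
  map_add' _ _ := Subtype.ext (psh_add _)
  map_smul' _ _ := Subtype.ext (psh_smul _ _)

theorem pC_fm (y : FO L) : g.Fm (pC g y).1 y.1 0 := by
  have := fm g.toGl3 (fo_3 y) Cs.zero
  rwa [psh_zero, add_zero] at this

theorem B_CC (y z : FO L) : B T.X (pC g y) (pC g z) = B L.X (cf y) (cf z) := ip_ll g.toGl3 (fo_3 z)

theorem nb_of {a c : Option O3} {B : O3} {T₁ : Pm a (some B) none} {T₂ : Pm (some B) c none} {T : Pm a c none}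
    (g : Cm T₁ T₂ T) (h : T.nb = 0) : T₁.nb = 0 ∧ T₂.nb = 0 := Nat.add_eq_zero_iff.1 (g.nb.symm.trans h)

end cp

variable {G : CG} {a : Option Q3} {B C : Q3} (Z : PG0 G a B C)

theorem nb1 : Z.X1.nb = 0 := (nb_of Z.gB Z.gN.nT).1

theorem nb2 : Z.X2.nb = 0 := (nb_of Z.g12 (nb_of Z.gC Z.gN.nT).1).2

theorem nb3 : Z.X3.nb = 0 := (nb_of Z.gC Z.gN.nT).2

/-- alive classes -/
def Al (k : Z.X.L) : Prop := G.N.ki.Cl (rr Z.gN.toGl3 k) G.c0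

theorem al_iff {k : Z.X.L} : (∃ x, Z.gN.Rr k x ∧ G.N.ki.Cl x G.c0) ↔ Al Z k :=
  ⟨fun ⟨_, h, e⟩ => (congrArg (G.N.ki.Cl · G.c0) (rr_eq _ h)).mpr e, fun h => ⟨_, rr_spec _ k, h⟩⟩

theorem al_L {k : Z.X.L} : Z.L.k3.Cl (rl Z.gN.toGl3 k) G.c0 ↔ Al Z k := cl_lr _ (rl_spec _ k) (rr_spec _ k)

theorem rl_ρ (s : Bool) (k : Z.X.L) : rl Z.gN.toGl3 ((Z.ρ s).r k) = rl Z.gN.toGl3 k := rl_eq _ (ρ_L Z s (rl_spec _ k))

theorem rr_ρ (s : Bool) (k : Z.X.L) : rr Z.gN.toGl3 ((Z.ρ s).r k) = (G.ρ s).r (rr Z.gN.toGl3 k) :=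
  rr_eq _ (ρ_N Z s (rr_spec _ k))

theorem al_ρ (s : Bool) {k : Z.X.L} : Al Z ((Z.ρ s).r k) ↔ Al Z k :=
  (al_L Z).symm.trans ((congrArg (Z.L.k3.Cl · G.c0) (rl_ρ Z s k)).to_iff.trans (al_L Z))

/-- classes and forms on the pieces -/
structure Dt where
  I1 : Set Z.X1.L
  I2 : Set Z.X2.L
  I3 : Set Z.X3.L
  M : Set Z.X.L
  IL : Set Z.L.L
  IN : Set G.N.L
  fL : IL.Finite
  r12 : ∀ j, rl Z.g12.toGl3 j ∈ I1 → rr Z.g12.toGl3 j ∈ I2 →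
    rl Z.g12.toGl3 (Z.ρ12.r j) ∈ I1 ∧ rr Z.g12.toGl3 (Z.ρ12.r j) ∈ I2
  r23 : ∀ j, rl Z.g23.toGl3 j ∈ I2 → rr Z.g23.toGl3 j ∈ I3 →
    rl Z.g23.toGl3 (Z.ρ23.r j) ∈ I2 ∧ rr Z.g23.toGl3 (Z.ρ23.r j) ∈ I3
  mI : ∀ k ∈ M, r1 Z k ∈ I1 ∧ r2 Z k ∈ I2 ∧ r3 Z k ∈ I3
  clL : ∀ l ∈ IL, Z.L.k3.Cl l G.c0
  rN : ∀ s, ∀ x ∈ IN, (G.ρ s).r x ∈ IN
  rM : ∀ s, ∀ k ∈ M, (Z.ρ s).r k ∈ M
  sat : ∀ k, Al Z k → (k ∈ M ↔ rl Z.gN.toGl3 k ∈ IL ∧ rr Z.gN.toGl3 k ∈ IN)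
  η1 : Z.X1.L → FO Z.X1
  η2 : Z.X2.L → FO Z.X2
  η3 : Z.X3.L → FO Z.X3
  ηL : Z.L.L → FO Z.L
  fin : (range η1).Finite ∧ (range η2).Finite ∧ (range η3).Finite ∧ (range ηL).Finite
  al : a = none → ∀ k ∈ M, Al Z k
  p1 : a = none → ∀ d ∈ I1, Z.X1.X.Ps d (η1 d).1
  p12 : a = none → ∀ j, rl Z.g12.toGl3 j ∈ I1 → rr Z.g12.toGl3 j ∈ I2 →
    Z.X12.X.Seg j (glu Z.g12 η1 η2 j).1 (rfo Z.ρ12 (glu Z.g12 η1 η2 (Z.ρ12.r j))).1
  p : a = none → ∀ s, ∀ k ∈ M, Z.X.X.Tri k (glu Z.gC (glu Z.g12 η1 η2) η3 k).1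
    (rfo (Z.ρ s) (glu Z.gC (glu Z.g12 η1 η2) η3 ((Z.ρ s).r k))).1 (pC Z.gN (ηL (rl Z.gN.toGl3 k))).1
  pL : a = none → ∀ l ∈ IL, Z.L.X.Ps l (ηL l).1
  p0 : a = none → ∀ i, rl Z.g0.toGl3 i ∈ IL → Z.X0.X.Ps i (pC Z.g0 (ηL (rl Z.g0.toGl3 i))).1

variable {Z}

theorem fin_val {α β : Type} {p : β → Prop} {f : α → Subtype p} (h : (range f).Finite) :
    (range fun d => (f d).1).Finite := (h.image Subtype.val).subset (range_comp Subtype.val f).le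

/-- the pentagon -/
def Dt.pg (D : Dt Z) (H : Lvs) : PG G a B C where
  toPG0 := Z
  I1 := D.I1
  I2 := D.I2
  I3 := D.I3
  T d₁ d₂ d₃ := ∀ k, r1 Z k = d₁ → r2 Z k = d₂ → r3 Z k = d₃ → k ∈ D.M
  M := D.M
  IL := D.IL
  IN := D.IN
  fL := D.fL
  r12 j _ _ h₁ h₂ m₁ m₂ :=
    have := D.r12 j (rl_eq _ h₁ ▸ m₁) (rr_eq _ h₂ ▸ m₂)
    ⟨_, this.1, _, this.2, rl_spec _ _, rr_spec _ _⟩
  r23 j _ _ h₁ h₂ m₁ m₂ :=
    have := D.r23 j (rl_eq _ h₁ ▸ m₁) (rr_eq _ h₂ ▸ m₂)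
    ⟨_, this.1, _, this.2, rl_spec _ _, rr_spec _ _⟩
  t12 j d₁ d₂ d₁' d₂' d₃ h₁ h₂ h₃ h₄ t k e₁ e₂ e₃ := by
    subst e₁ e₂ e₃
    have e := ρ0_l Z (rl_spec _ k)
    rw [← clsStmt.mvu Z.g12.toGl3 _ _ _ _ h₃ h₄ (rl_spec _ _) (rr_spec _ _), Z.ρ12.rr] at e
    have r := r_C Z e h₁ h₂ (ρ0_r Z (rr_spec _ k))
    exact (Z.ρ false).rr k ▸ D.rM false _ (t _ r.1 r.2.1 r.2.2)
  t23 j d₁ d₂ d₃ d₂' d₃' h₁ h₂ h₃ h₄ t k e₁ e₂ e₃ := by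
    subst e₁ e₂ e₃
    have e := ρ1_r Z (rr_spec _ k)
    rw [← clsStmt.mvu Z.g23.toGl3 _ _ _ _ h₃ h₄ (r2_B Z (rr_spec _ _)) (r3_B Z (rr_spec _ _)), Z.ρ23.rr] at e
    have r := r_B Z e (ρ1_l Z (r1_B Z k)) h₁ h₂
    exact (Z.ρ true).rr k ▸ D.rM true _ (t _ r.1 r.2.1 r.2.2)
  hM k := ⟨fun m => ⟨_, _, (D.mI k m).1, _, (D.mI k m).2.1, _, (D.mI k m).2.2, rl_spec _ k, rr_spec _ k, rl_spec _ _,
      rr_spec _ _, fun _ e₁ e₂ e₃ => r_inj Z e₁ e₂ e₃ ▸ m⟩, fun ⟨_, _, _, _, _, _, _, h, h₃, h₁, h₂, t⟩ =>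
    have r := r_C Z h h₁ h₂ h₃
    t k r.1 r.2.1 r.2.2⟩
  rM := D.rM
  clL := D.clL
  rN := D.rN
  sat k _ _ h h' e := rl_eq _ h ▸ rr_eq _ h' ▸ D.sat k ((al_iff Z).1 ⟨_, h', e⟩)
  f1 := fin_of H _ (some B) _ _
  f2 := fin_of H (some B) (some C) _ _
  f3 := fin_of H (some C) _ _ _
  η1 d := (D.η1 d).1
  η2 d := (D.η2 d).1
  η3 d := (D.η3 d).1
  η12 j := (glu Z.g12 D.η1 D.η2 j).1
  η23 j := (glu Z.g23 D.η2 D.η3 j).1
  η k := (glu Z.gC (glu Z.g12 D.η1 D.η2) D.η3 k).1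
  ηL l := (D.ηL l).1
  ηN k := (pC Z.gN (D.ηL (rl Z.gN.toGl3 k))).1
  η0 i := (pC Z.g0 (D.ηL (rl Z.g0.toGl3 i))).1
  fo := ⟨fun d => (D.η1 d).2, fun d => (D.η2 d).2, fun d => (D.η3 d).2, fun d => (D.ηL d).2⟩
  fin := ⟨fin_val D.fin.1, fin_val D.fin.2.1, fin_val D.fin.2.2.1, fin_val D.fin.2.2.2⟩
  e12 := glu_fm _ _ _
  e23 := glu_fm _ _ _
  eC := glu_fm _ _ _
  eN _ _ h := rl_eq _ h ▸ pC_fm _ _
  e0 _ _ h := rl_eq _ h ▸ pC_fm _ _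
  al h k m _ e := rr_eq _ e ▸ D.al h k m
  p1 := D.p1
  p12 h j _ _ h₁ h₂ m₁ m₂ := D.p12 h j (rl_eq _ h₁ ▸ m₁) (rr_eq _ h₂ ▸ m₂)
  p := D.p
  pL := D.pL
  p0 h i _ m e := D.p0 h i (rl_eq _ e ▸ m)

/-! ### reflections of forms -/

theorem pm_fix {X X' : M4} (ψ : X'.Dif X') (f : PD X X') (h : ∀ p ∈ f.source, ψ.φ (f p) = f p) (e : X.Fm) :
    pm X'.I X'.I ψ.φ (psh f e) = psh f e :=
  eq_psh f (fun q hq => (pm_eqv (φ := ψ) f (φ₁ := .refl X) h (mapsTo_id _) _ hq).trans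
      ((congrFun (Dr59.pm_id _) q).trans (Dr59.pm_psh f hq e))) fun _ hx =>
    pm_off (indicator_of_notMem (fun k => hx (mem_of_eq_of_mem
      (ψ.φ.injective ((h _ (f.map_target k)).trans (f.right_inv k))).symm (f.map_source (f.map_target k)))) _)

theorem pm_psh_eqv {X X' : M4} (ψ : X'.Dif X') (f : PD X X') (ψ₁ : X.Dif X) (h : ∀ p ∈ f.source, ψ.φ (f p) = f (ψ₁.φ p))
    (m : MapsTo ψ₁.φ f.source f.source) (m' : MapsTo ψ₁.φ.symm f.source f.source) (e : X.Fm) :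
    pm X'.I X'.I ψ.φ (psh f e) = psh f (pm X.I X.I ψ₁.φ e) :=
  eq_psh f (fun _ hq => (pm_eqv (φ := ψ) f h m _ hq).trans (Dr59.pm_congr_right (Dr59.pm_psh f (m hq) e))) fun _ hx =>
    pm_off (indicator_of_notMem (fun k => hx (mem_of_eq_of_mem (ψ.φ.injective ((h _ (m' (f.map_target k))).trans
      ((congrArg f (ψ₁.φ.apply_symm_apply _)).trans (f.right_inv k)))).symm (f.map_source (m' (f.map_target k))))) _)

theorem psh_psh {X X' X'' : M4} (f : PD X X') (g : PD X' X'') (h : PD X X'') (s : h.source = f.source)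
    (m : MapsTo f f.source g.source) (e : ∀ p ∈ f.source, g (f p) = h p) (y : X.Fm) : psh g (psh f y) = psh h y :=
  eq_psh h (fun q hq => by
    have hq' := s ▸ hq
    rw [Dr59.pm_congr (g := g ∘ f) (eventually_of_mem (f.open_source.mem_nhds hq') fun p hp => (e p hp).symm) rfl,
      ← Dr59.pm_comp (md_pd g (m hq')) (md_pd f hq'), Dr59.pm_congr_right (Dr59.pm_psh g (m hq') _), Dr59.pm_psh f hq'])
    fun x hx => Dr59.psh_eq_zero g (S := f.target) (fun _ _ k => indicator_of_notMem k _) fun ⟨p, k, e'⟩ =>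
      hx (e' ▸ ((congrArg g (f.right_inv k)).symm.trans (e _ (f.map_target k))).symm ▸ h.map_source (s ▸ f.map_target k))

variable (Z)

theorem pL_pL (y : FO Z.X1) : pL Z.gC (pL Z.g12 y) = pL Z.gB y :=
  Subtype.ext (psh_psh _ _ _ (Z.gB.ls.trans Z.g12.ls.symm)
    (fun _ m => (mem_l Z.gC.toGl3).2 ((ko_l Z.g12 m).trans_lt four_pos)) Z.as1 _)

theorem rfo_L (y : FO Z.X12) : rfo (Z.ρ false) (pL Z.gC y) = pL Z.gC (rfo Z.ρ12 y) :=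
  Subtype.ext (pm_psh_eqv _ _ _ Z.mC.1 (rf_maps _ (core_o Z.gC.toGl3)) (rf_symm _ (core_o Z.gC.toGl3)) _)

theorem rfo_R (y : FO Z.X3) : rfo (Z.ρ false) (pR Z.gC y) = pR Z.gC y := Subtype.ext (pm_fix _ _ Z.mC.2 _)

theorem rfo_B (y : FO Z.X1) : rfo (Z.ρ true) (pL Z.gB y) = pL Z.gB y := Subtype.ext (pm_fix _ _ Z.mB.1 _)

theorem pl_C (s : Bool) (y : FO Z.L) : pl (Z.ρ s).toDif (pC Z.gN y) = pC Z.gN y :=
  Subtype.ext (pm_fix _ _ (Z.mN s).1 _)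

variable (H : CH G)

theorem cs_e (s : Bool) : Cs G.N.X.I 2 Z.gN.r.source (H.e s) := (H.zr s).mono (core_i Z.gN.toGl3)

/-- the duals of the spheres -/
def eX (s : Bool) : CF Z.X.X := ⟨H.E Z s, ((cs_e Z H s).psh _ subset_rfl).mono (subset_univ _)⟩

theorem B_e (y : CF Z.X.X) (s : Bool) :
    Pen22.B _ y (eX Z H s) = G.N.X.ip (pm G.N.X.I Z.X.X.I Z.gN.r y.1) (H.e s) :=
  ip_pd _ Z.gN.pr (cs_e Z H s) subset_rfl _

theorem B_ee (s t : Bool) : Pen22.B _ (eX Z H s) (eX Z H t) = if s = t then -1 else 1 :=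
  (B_e Z H _ t).trans (((cs_e Z H t).ip_congr fun _ h => Dr59.pm_psh _ h _).trans (H.ee s t))

theorem V_e (k : Z.X.L) (s : Bool) : V k (eX Z H s) = pv (rr Z.gN.toGl3 k) (H.e s) :=
  pv_psh _ Z.gN.pr (rr_spec _ k) (cs_e Z H s) subset_rfl

/-- **the reflection formula** -/
theorem B_ρ (s : Bool) (y z : CF Z.X.X) : Pen22.B _ z (pl (Z.ρ s).toDif y) =
    Pen22.B _ z y + 2 * Pen22.B _ y (eX Z H s) * Pen22.B _ z (eX Z H s) := by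
  have c := core_i Z.gN.toGl3
  have u : nU G = Z.gN.r.source := Z.gN.rs.symm
  have cl : ∀ y : CF Z.X.X, Cl G.N.X.I 2 Z.gN.r.source (pm G.N.X.I Z.X.X.I Z.gN.r y.1) := fun y =>
    y.2.cl.pm (mp_pd _)
  set y' := pm G.N.X.I Z.X.X.I Z.gN.r y.1
  have z0 : ∀ p ∉ G.N.Core, (pm G.N.X.I G.N.X.I (G.ρ s).φ y' - y') p = 0 := fun p hp => sub_eq_zero.2 (rf_off _ hp _)
  have w := Dr59.cs_indicator Z.gN.r.open_source (((cl y).pm (Mp.of_contMDiff (G.ρ s).φ.contMDiff (rf_maps _ c))).sub (cl y))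
    (cpt_core _) c fun p _ => z0 p
  rw [indicator_eq_self.2 fun p hp => c (by_contra fun k => hp (z0 p k))] at w
  have e : (pl (Z.ρ s).toDif y - y).1 = psh Z.gN.r (pm G.N.X.I G.N.X.I (G.ρ s).φ y' - y') :=
    eq_psh _ (fun q hq => (congrFun (Dr59.pm_sub _ _ _) q).trans
      (congrArg (· - y' q) (pm_eqv _ (Z.mN s).2 (rf_maps _ c) _ hq))) fun x hx => sub_eq_zero.2
      (Dr59.pm_of_eventually_id (eventually_of_mem (Z.gN.l.open_target.mem_nhds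
        (((cov Z.gN.toGl3).ge (mem_univ x)).resolve_right hx)) fun p hp =>
          (congrArg (Z.ρ s).φ (Z.gN.l.right_inv hp)).symm.trans
            (((Z.mN s).1 _ (Z.gN.l.map_target hp)).trans (Z.gN.l.right_inv hp))) _)
  rw [← sub_eq_iff_eq_add', ← map_sub, B_e, B_e, ← H.rf s _ _ (u ▸ cl y) (u ▸ cl z)]
  exact (congrArg (Z.X.X.ip z) e).trans (ip_pd _ Z.gN.pr w c _)

theorem B_fix {s : Bool} {y : CF Z.X.X} (h : pl (Z.ρ s).toDif y = y) : Pen22.B _ y (eX Z H s) = 0 := by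
  have := B_ρ Z H s y (eX Z H s)
  rw [h, B_ee, if_pos rfl] at this
  linarith

theorem V_cu (k : Z.X.L) (y : CF Z.X.X) : V k y = Pen22.B _ (cf (cu k)) y := (B_cur (cu_spec k) y).symm

theorem V_ρ (s : Bool) (k : Z.X.L) (y : CF Z.X.X) :
    V ((Z.ρ s).r k) y = V k y + 2 * Pen22.B _ y (eX Z H s) * V k (eX Z H s) := by
  rw [V_r, V_cu, V_cu, V_cu, B_ρ Z H]

theorem V_half (s : Bool) (k : Z.X.L) : (Z.ρ s).half k ↔ 0 < V k (eX Z H s) :=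
  (Z.hN s k _ (rr_spec _ k)).trans ((H.hf s _ _ (exists_cur _).choose_spec).trans (by rw [V_e]; rfl))

theorem V_int (s : Bool) (k : Z.X.L) : ∃ n : ℤ, V k (eX Z H s) = 2 * π * n :=
  (H.int s _ _ (exists_cur _).choose_spec).imp fun _ h => (V_e Z H k s).trans h

theorem V_ne (s : Bool) (k : Z.X.L) : V k (eX Z H s) ≠ 0 := fun h => by
  have := (Z.ρ s).hr k
  rw [V_half Z H, V_half Z H, V_ρ Z H, h] at this
  simp at this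

variable {Z H} in
theorem V_al (R : Rel G H) {k : Z.X.L} (h : Al Z k) : V k (eX Z H true) = -V k (eX Z H false) := by
  rw [V_e, V_e]
  exact eq_neg_of_add_eq_zero_right (R.al _ _ (exists_cur _).choose_spec h)

/-- the reflections on the classes of the plumbing -/
theorem pv_ρ (s : Bool) (x : G.N.L) (t : Bool) :
    pv x (H.e t) = pv ((G.ρ s).r x) (H.e t) + 2 * pv ((G.ρ s).r x) (H.e s) * if t = s then -1 else 1 := by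
  obtain ⟨c, hc⟩ := exists_cur ((G.ρ s).r x)
  have hc' := cur_dif ((G.ρ s).pb x) hc
  rw [← pv_eq hc' (H.zr t), ← pv_eq hc (H.zr t), ← pv_eq hc (H.zr s), ← H.ee, ← H.rf s _ _ ((cur_cl hc).mono (subset_univ _))
    ((H.zr t).on _), M4.ip, M4.ip, M4.ip, Dr59.ip_comm (H.zr t).cl.dg, ((H.zr t).mono (subset_univ _)).ip_sub G.N.X.ori
      (cur_cl hc').sm (cur_cl hc).sm, add_sub_cancel]

end Crest.Agent.X212.Pen22
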