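import Crest.Agent.X212.Pen22.Ar

/-!
# Row 212, layer GEO (helper22): symmetric forms of rank three with two spheres
-/

set_option autoImplicit false

namespace Crest.Agent.X212.Pen22

open Real

variable {V : Type*} [AddCommGroup V] [Module ℝ V] {B : V →ₗ[ℝ] V →ₗ[ℝ] ℝ} (hB : ∀ y z, B y z = B z y)

variable (B) in
/-- orthogonal triples span -/
def Rk3 : Prop := ∀ f₁ f₂ f₃, B f₁ f₂ = 0 → B f₁ f₃ = 0 → B f₂ f₃ = 0 → B f₁ f₁ ≠ 0 → B f₂ f₂ ≠ 0 → B f₃ f₃ ≠ 0 →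
  ∀ y z, B y z = B y f₁ * B z f₁ / B f₁ f₁ + B y f₂ * B z f₂ / B f₂ f₂ + B y f₃ * B z f₃ / B f₃ f₃

theorem Rk3.pos (h : Rk3 B) {S y f₁ f₂ f₃ : V} (hS : B S S = 0) (hy : B y S ≠ 0) (h₁ : B f₁ f₂ = 0) (h₂ : B f₁ f₃ = 0)
    (h₃ : B f₂ f₃ = 0) (n₁ : B f₁ f₁ ≠ 0) (n₂ : B f₂ f₂ ≠ 0) (n₃ : B f₃ f₃ ≠ 0) :
    0 < B f₁ f₁ ∨ 0 < B f₂ f₂ ∨ 0 < B f₃ f₃ := by
  by_contra! k
  have e := h _ _ _ h₁ h₂ h₃ n₁ n₂ n₃ S S
  have p := fun f (k : B f f ≤ 0) => div_nonpos_of_nonneg_of_nonpos (mul_self_nonneg (B S f)) k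
  have z := fun f (n : B f f ≠ 0) (e : B S f * B S f / B f f = 0) =>
    mul_self_eq_zero.1 ((div_eq_zero_iff.1 e).resolve_right n)
  have := h _ _ _ h₁ h₂ h₃ n₁ n₂ n₃ y S
  rw [z _ n₁ (by linarith [p _ k.1, p _ k.2.1, p _ k.2.2]), z _ n₂ (by linarith [p _ k.1, p _ k.2.1, p _ k.2.2]),
    z _ n₃ (by linarith [p _ k.1, p _ k.2.1, p _ k.2.2])] at this
  exact hy (by simpa using this)

include hB

theorem sq_pos {E A : V} (hE : B E E = -1) (hA : 0 < B A A) : 0 < B (A + B A E • E) (A + B A E • E) := by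
  simp only [map_add, map_smul, LinearMap.add_apply, LinearMap.smul_apply, smul_eq_mul, hE, hB E A]
  nlinarith [mul_self_nonneg (B A E)]

theorem Rk3.ne (h : Rk3 B) {S E y A : V} (hS : B S S = 0) (hE : B E E = -1) (hSE : B E S = 0) (hy : B y S ≠ 0)
    (hA : 0 < B A A) : B A S ≠ 0 := fun h0 => by
  obtain ⟨f, e1, e2, e3⟩ : ∃ f, B E f = 0 ∧ 0 < B f f ∧ B f S = 0 := 
    ⟨A + B A E • E, by simp [hE, hB E A], sq_pos hB hE hA, by simp [h0, hSE]⟩
  obtain ⟨x, k1, k2, k3⟩ : ∃ x, B E x = 0 ∧ B f x = 0 ∧ B x S = B y S := ⟨y + B y E • E - (B y f / B f f) • f,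
    by simp [hE, e1, hB E y], by simp [hB f E, e1, hB f y, e2.ne'], by simp [hSE, e3]⟩
  have n : B (((1 - B x x) / (2 * B y S)) • S + x) (((1 - B x x) / (2 * B y S)) • S + x) = 1 := by
    simp only [map_add, map_smul, LinearMap.add_apply, LinearMap.smul_apply, smul_eq_mul, hS, hB S x, k3]
    field_simp
    ring
  have := h E f (((1 - B x x) / (2 * B y S)) • S + x) e1 (by simp [hSE, k1]) (by simp [e3, k2]) (by simp [hE]) e2.ne'
    (n.trans_ne one_ne_zero) S S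
  rw [n] at this
  simp [hS, hB S E, hSE, hB S f, e3, hB S x, k3, hy] at this

/-- a basis of signature `(-, +, -)` -/
theorem Rk3.bas (h : Rk3 B) {S E A : V} (hS : B S S = 0) (hE : B E E = -1) (hSE : B E S = 0) (hA : 0 < B A A)
    (h0 : B A S ≠ 0) : ∃ f₂ f₃, B E f₂ = 0 ∧ B E f₃ = 0 ∧ B f₂ f₃ = 0 ∧ 0 < B f₂ f₂ ∧ B f₃ f₃ < 0 ∧
      ∀ c, B c S = 0 → B c c = -(B c E * B c E) := by
  obtain ⟨f, e1, e2, e3⟩ : ∃ f, B E f = 0 ∧ 0 < B f f ∧ B f S ≠ 0 := 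
    ⟨A + B A E • E, by simp [hE, hB E A], sq_pos hB hE hA, by simpa [hSE]⟩
  have n : B (S - (B f S / B f f) • f) (S - (B f S / B f f) • f) = -(B f S * B f S / B f f) := by
    simp only [map_sub, map_smul, LinearMap.sub_apply, LinearMap.smul_apply, smul_eq_mul, hS, hB S f]
    field_simp
    ring
  have l := neg_lt_zero.2 (div_pos (mul_self_pos.2 e3) e2)
  have a : B E (S - (B f S / B f f) • f) = 0 := by simp [hSE, e1]
  have b : B f (S - (B f S / B f f) • f) = 0 := by simp [e2.ne']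
  refine ⟨f, _, e1, a, b, e2, n.trans_lt l, fun c hc => ?_⟩
  rw [h E f _ e1 a b (by simp [hE]) e2.ne' (n.trans_lt l).ne c c, n, hE]
  simp only [map_sub, map_smul, smul_eq_mul, hc]
  field_simp
  ring

/-- the sign of the perturbation -/
noncomputable def ep (u : ℝ) : ℝ := if 0 ≤ u then -1 else 1

/-- a reflection path stays in a chamber or crosses one wall -/
theorem wall {A A' c : V} {a v : ℝ} (hA : 4 * π ^ 2 < B A A) (h' : B A' A' = B A A) (h1 : B A A' = B A A + 2 * a * a)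
    (h2 : B c A' = B c A + 2 * a * v) (hv : v * v = 4 * π ^ 2) (hc : B c c = -(4 * π ^ 2)) :
    0 < B (ep (B c A) • A - c) (ep (B c A) • A - c) ∧ 0 < B (ep (B c A') • A' - c) (ep (B c A') • A' - c) ∧
      ((0 ≤ B c A ↔ 0 ≤ B c A') → 0 < B (ep (B c A) • A - c) (ep (B c A') • A' - c)) ∧
      (¬(0 ≤ B c A ↔ 0 ≤ B c A') → B (ep (B c A) • A - c) (ep (B c A') • A' - c) < 0) := by
  simp only [map_sub, map_smul, LinearMap.sub_apply, LinearMap.smul_apply, smul_eq_mul, hB A c, hB A' c, h', h1, hc, ep]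
  split_ifs with p q q
  · exact ⟨by linarith, by linarith, fun _ => by nlinarith [mul_self_nonneg a], fun k => (k (iff_of_true p q)).elim⟩
  · exact ⟨by linarith, by linarith, fun k => (q (k.1 p)).elim, fun _ => by nlinarith [mul_self_nonneg (2 * a + v)]⟩
  · exact ⟨by linarith, by linarith, fun k => (p (k.2 q)).elim, fun _ => by nlinarith [mul_self_nonneg (2 * a - v)]⟩
  · exact ⟨by linarith, by linarith, fun _ => by nlinarith [mul_self_nonneg a], fun k => (k (iff_of_false p q)).elim⟩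

theorem seg_pos {p q : V} (h : 0 < B p p) (h' : 0 < B q q) (k : 0 < B p q) {s : ℝ} (hs : s ∈ Set.Icc (0 : ℝ) 1) :
    0 < B ((1 - s) • p + s • q) ((1 - s) • p + s • q) := by
  simp only [map_add, map_smul, LinearMap.add_apply, LinearMap.smul_apply, smul_eq_mul, hB q p]
  have a := mul_nonneg (mul_nonneg (sub_nonneg.2 hs.2) hs.1) k.le
  rcases hs.1.eq_or_lt with rfl | e
  · simpa using h
  · nlinarith [mul_nonneg (mul_self_nonneg (1 - s)) h.le, mul_pos (mul_pos e e) h']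

omit hB in
theorem exists_mu {q : ℝ} (h : 0 < q) : ∃ μ : ℝ, 4 * π ^ 2 < μ * (μ * q) :=
  ⟨√(4 * π ^ 2 / q + 1), by
    rw [← mul_assoc, mul_self_sqrt (by positivity), add_mul, div_mul_cancel₀ _ h.ne']; linarith⟩

end Crest.Agent.X212.Pen22
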