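import Crest.Agent.X212.Pen22.Qh

/-!
# Row 212, layer GEO (helper22): forms and classes of the pentagon at the empty vertex
-/

set_option autoImplicit false
set_option linter.unusedSectionVars false

open Set Filter Topology Function Module
open scoped ContDiff Manifold
open Crest.Agent.X212.Dr59 (Cs Cl Ex HZ Mp pm psh)
open Crest.Agent.X212.Orx52 (Pos)
open Crest.Agent.X212.Rod53 (ld_pd)
open Crest.Agent.X212.Rfl19 Crest.Agent.X212.Nvg56 Crest.Agent.X212.Mv17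

noncomputable section

namespace Crest.Agent.X212.Pen22

open Bor5.T Geo28 Real

section gen

variable {X X' X'' : M4}

theorem pos_trans {f : PD X X'} {g : PD X' X''} (h : Pos X.I X'.I f f.source X.o X'.o)
    (h' : Pos X'.I X''.I g g.source X'.o X''.o) : Pos X.I X''.I (f.trans g) (f.trans g).source X.o X''.o :=
  h'.comp (h.mono inter_subset_left) (fun _ => ld_pd g) (fun _ m => ld_pd f m.1) fun _ m => m.2

theorem pos_symm {f : PD X X'} (h : Pos X.I X'.I f f.source X.o X'.o) :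
    Pos X'.I X.I f.symm f.symm.source X'.o X.o := (h.symm subset_rfl).mono f.image_source_eq_target.ge

theorem cur_pb' {O : Set X.M} (hO : IsOpen O) {f : X.M → X'.M} {d : X.L} {d' : X'.L} (h : Pb f O d' d) {c c'}
    (k : Cur d c) (k' : Cur d' c') : Ex X.I O (pm X.I X'.I f c' - c) := cur_pb hO h k k'

theorem psh_off (f : PD X X') {e : X.Fm} {q : X.M} (hq : q ∈ f.source) (h : e q = 0) : psh f e (f q) = 0 :=
  (indicator_of_mem (f.map_source hq) _).trans (pm_off ((congrArg e (f.left_inv hq)).trans h))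

theorem psh_symm (f : PD X X') {w : X'.Fm} {S : Set X'.M} (h : Cs X'.I 2 S w) (hS : S ⊆ f.target) :
    psh f (psh f.symm w) = w :=
  (eq_psh f (fun _ hq => (indicator_of_mem hq _).symm) fun _ hx => h.eq_zero fun m => hx (hS m)).symm

theorem pb_trunc {A : O3} {J J' : Set ℝ} {O O' : Set X.M} {f : X.M → X'.M} {d : X.L} {d' : X'.L} (e : Pb f O d' d)
    (hf : ∀ p ∈ O', IsLocalDiffeomorphAt X.I X'.I ∞ f p) (φ : PartialDiffeomorph (IY A) X.I (A.Y.M × ℝ) X.M ∞)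
    (src : φ.source = Prod.snd ⁻¹' J) (hp : ∀ z ∈ φ.source, φ z ∈ O ↔ z.2 ∈ J') (h0 : J' ⊆ J) (hO : IsOpen O)
    (hJ : IsOpen J) (hc : OrdConnected J) (hJ' : IsOpen J') (hc' : OrdConnected J') (hn : J'.Nonempty)
    (h : O' = O ∪ φ.target) : Pb f O' d' d := by
  have l := fun z (hz : z ∈ Prod.snd ⁻¹' J) => ld_pd φ (src.ge hz)
  obtain ⟨s, k⟩ := end_ex hJ hc (hn.mono h0) l d
  have k' := pb_ext hJ hc hJ' h0 hn (fun z hz => (l z hz).comp X'.I X'.M (hf _ (h.ge (.inr (φ.map_source (src.ge hz))))))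
    (pb_comp e (pb_mono k (preimage_mono h0)) fun z hz => (hp z (src.ge (h0 hz))).2 hz)
  have e' : Pb f φ.target d' d := pb_congr (pb_comp k' (pb_inv φ (src ▸ k)) fun _ m => src.le (φ.map_target m))
    fun _ m => ((ev_r φ m).fun_comp f).symm
  exact ⟨hf, cls_inj hO φ.open_target h.le (spl_end φ src hp h0 hO hJ' hc' hn) (subset_union_left.trans h.ge)
    (subset_union_right.trans h.ge) ((pull_res _ _ _ _).trans (e.2.trans (res_res _ _ _).symm))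
    ((pull_res _ _ _ _).trans (e'.2.trans (res_res _ _ _).symm))⟩

theorem ex_fac {C X₁ : M4} (φ : C.Dif X₁) (g : PD X₁ X') {O : Set X.M} (hO : IsOpen O) {l : X.M → C.M} {f : X.M → X'.M}
    (hl : ∀ p ∈ O, IsLocalDiffeomorphAt X.I C.I ∞ l p) (m : ∀ p ∈ O, φ.φ (l p) ∈ g.source)
    (e : ∀ p ∈ O, f p = g (φ.φ (l p))) {x : X₁.Fm} {y w : X'.Fm} (hy : y = psh g x) {η : C.Fm} {c v : X.Fm}
    (h : Ex X₁.I univ (x - φ.ps η)) (hη : ∀ p ∈ O, pm X.I C.I l η p = (c + v) p) (hw : ∀ p ∈ O, pm X.I X'.I f w p = v p) :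
    Ex X.I O (pm X.I X'.I f (y - w) - c) := by
  have d := fun p m => ((hl p m).contMDiffAt.mdifferentiableAt (by simp))
  have d' := φ.φ.mdifferentiable (by simp)
  refine (h.pm (f := φ.φ ∘ l) ⟨fun p m => (φ.φ.contMDiff _).comp p (hl p m).contMDiffAt, mapsTo_univ _ _⟩).congr
    fun p hp => ?_
  rw [Dr59.pm_sub, Dr59.pm_sub, Pi.sub_apply, Pi.sub_apply, Pi.sub_apply, hw p hp, hy,
    Dr59.pm_congr (g := g ∘ φ.φ ∘ l) (eventually_of_mem (hO.mem_nhds hp) e) rfl,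
    ← Dr59.pm_comp (f := φ.φ ∘ l) (md_pd g (m p hp)) ((d' _).comp p (d p hp)),
    Dr59.pm_congr_right (f := φ.φ ∘ l) (Dr59.pm_psh g (m p hp) x), ← Dr59.pm_comp (a := φ.ps η) (d' _) (d p hp), φ.pm_ps,
    hη p hp, Pi.add_apply, sub_sub, add_comm]

/-- a torsion class on the third end -/
theorem cu3 {A : O3} {L : Pm none none (some A)} {l : L.L} {c : A.L} (h : L.k3.Cl l c) (t : Tor c) :
    ∃ y : FO L, Cur l y.1 := by
  obtain ⟨f, f1, f2⟩ := t
  obtain ⟨e, he⟩ := exists_cur l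
  have o := (isOpen_Ioi (a := (0 : ℝ))).preimage (continuous_snd (X := A.Y.M))
  have x := Dr59.ex_pd (Nc.k L.k3) o (nc_src L.k3).ge (((cur_pb o ((nc_cl L.k3).1 h) f1 he).add
    (f2.mono (subset_univ _))).congr fun _ _ => (sub_add_cancel _ _).symm)
  rw [nc_img L.k3 subset_rfl] at x
  obtain ⟨y, y1, y2, y3, -⟩ := kill (isOpen_Iio.preimage (Nc.cont L.k3)) (isOpen_Ioi.preimage (Nc.cont L.k3))
    (by rw [← preimage_union, Iio_union_Ioi_of_lt one_pos, preimage_univ]) (cur_cl he) x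
  have z : ∀ p, p ∉ {p | -1 ≤ L.ki.tm p ∧ L.ko.tm p ≤ 1 ∧ L.k3.tm p ≤ 1} → y p = 0 := fun p hp =>
    y3 p fun m => hp ⟨neg_one_lt_zero.le, zero_le_one, le_of_lt m⟩
  exact ⟨⟨y, y1, HasCompactSupport.intro (L.cpt 1) z, closure_minimal (fun x hx => by_contra fun e => hx (z x e))
    (L.cpt 1).isClosed⟩, cur_of_ex he y1 y2⟩

/-- a curvature form that vanishes on a cap without cohomology -/
theorem cu0 {A : O3} {L : Pm none none (some A)} {Q : Pm (some A) none none} {T : Pm none none none} (g : Cp3 L Q T)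
    (h : HZ Q.X.I 2 (univ : Set Q.M)) (i : T.L) : ∃ y : FO L, Cur i (pC g y).1 := by
  obtain ⟨e, he⟩ := exists_cur i
  obtain ⟨f, hf⟩ := exists_cur (rr g.toGl3 i)
  have x := Dr59.ex_pd g.r g.r.open_source subset_rfl (((cur_pb g.r.open_source (rr_spec _ i) hf he).add
    ((h _ (cur_cl hf)).mono (subset_univ _))).congr fun _ _ => (sub_add_cancel _ _).symm)
  rw [g.r.image_source_eq_target, g.rt] at x
  obtain ⟨y, y1, y2, y3, -⟩ := kill (isOpen_Iio.preimage g.n.cont) (isOpen_Ioi.preimage g.n.cont)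
    (by rw [← preimage_union, Iio_union_Ioi_of_lt one_pos, preimage_univ]) (cur_cl he) x
  have c : Cs T.X.I 2 (g.n.tm ⁻¹' Iic 1) y := ⟨y1, HasCompactSupport.intro (T.cpt 0) fun _ m =>
    (m ⟨neg_zero.le, le_rfl, le_rfl⟩).elim, closure_minimal (fun x hx => by_contra fun e => hx (y3 x fun m => e (le_of_lt (a := g.n.tm x) m)))
      (isClosed_Iic.preimage g.n.cont)⟩
  have s : g.n.tm ⁻¹' Iic 1 ⊆ g.l.target := fun _ m => (mem_lt g.toGl3).2 (lt_of_le_of_lt m (by norm_num))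
  refine ⟨⟨psh g.l.symm y, (c.psh g.l.symm s).mono (image_subset_iff.2 fun p m => ⟨neg_one_lt_zero.le, zero_le_one,
    le_of_not_gt fun k => ?_⟩)⟩, (congrArg (Cur i) (psh_symm g.l c s)).mpr (cur_of_ex he y1 y2)⟩
  exact ((tm_l g.toGl3 (g.l.map_target (s m)) (.inl (one_pos.trans k))).symm.trans
    (congrArg g.n.tm (g.l.right_inv (s m)))).le.trans m |>.not_gt k

end gen

section pent

variable {G : CG} {a : Option Q3} {B C : Q3} (Z : PG0 G a B C)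

/-- forms on the first piece -/
def p1 : FO Z.X1 →ₗ[ℝ] CF Z.X.X := cf ∘ₗ pL Z.gC ∘ₗ pL Z.g12

/-- forms on the second piece -/
def p2 : FO Z.X2 →ₗ[ℝ] CF Z.X.X := cf ∘ₗ pL Z.gC ∘ₗ pR Z.g12

/-- forms on the third piece -/
def p3 : FO Z.X3 →ₗ[ℝ] CF Z.X.X := cf ∘ₗ pR Z.gC

/-- the curvature form on the first piece -/
def c1 (k : Z.X.L) : FO Z.X1 := cu (b := some B) (r1 Z k)

/-- the curvature form on the second piece -/
def c2 (k : Z.X.L) : FO Z.X2 := cu (a := some B) (b := some C) (r2 Z k)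

/-- the curvature form on the third piece -/
def c3 (k : Z.X.L) : FO Z.X3 := cu (a := some C) (r3 Z k)

/-- a curvature form -/
def cc (k : Z.X.L) : CF Z.X.X := p1 Z (c1 Z k) + p2 Z (c2 Z k) + p3 Z (c3 Z k)

theorem cur_12 (k : Z.X.L) : Cur (rl Z.gC.toGl3 k) (pL Z.g12 (c1 Z k) + pR Z.g12 (c2 Z k)).1 :=
  cur_LR Z.g12 B.h1 (rl_spec _ _) (rr_spec _ _) (cu_spec (b := some B) _) (cu_spec (a := some B) (b := some C) _)

theorem cc_spec (k : Z.X.L) : Cur k (cc Z k).1 := by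
  have := cur_LR Z.gC C.h1 (rl_spec _ k) (rr_spec _ k) (cur_12 Z k) (cu_spec (a := some C) _)
  rwa [map_add] at this

theorem V_cc (k : Z.X.L) (y : CF Z.X.X) : Pen22.B _ (cc Z k) y = V k y := B_cur (cc_spec Z k) y

theorem pl_p1 (y : FO Z.X1) : pl (Z.ρ true).toDif (p1 Z y) = p1 Z y :=
  (congrArg (fun y => cf (rfo (Z.ρ true) y)) (pL_pL Z y)).trans (congrArg cf ((rfo_B Z y).trans (pL_pL Z y).symm))

theorem pl_p3 (y : FO Z.X3) : pl (Z.ρ false).toDif (p3 Z y) = p3 Z y := congrArg cf (rfo_R Z y)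

end pent

variable {G : CG} {H : CH G} {S : Scene} {Q : Prd} {R : ℝ} {P : Pent S Q R} {Z : PG0 G none (S.ob P.i) (S.ob P.j)}
  (N : NH H P Z)

namespace NH

/-- the two sides -/
def U : Bool → Set P.W.M
  | false => P.W.X.τ ⁻¹' Iio N.β
  | true => P.W.X.τ ⁻¹' Ioi N.α

/-- the part of `W` off the circle, in `L` -/
def j0 : PD (m4 P.W) Z.L.X := N.φ0.φ.toPartialDiffeomorph.trans Z.g0.l.symm

/-- the same in `X` -/
abbrev ι : PD (m4 P.W) Z.X.X := io Z N.φ0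

theorem opU : ∀ b, IsOpen (N.U b)
  | false => isOpen_Iio.preimage P.W.X.cont
  | true => isOpen_Ioi.preimage P.W.X.cont

theorem cor : ∀ {b p}, p ∈ N.U b → p ∈ N.j0.source ∧ N.j0 p ∈ Z.L.Core
  | false, p, h => ⟨⟨trivial, (N.core p (.inl h)).1⟩, (N.core p (.inl h)).2⟩
  | true, p, h => ⟨⟨trivial, (N.core p (.inr h)).1⟩, (N.core p (.inr h)).2⟩

theorem mj : MapsTo N.j0 N.j0.source Z.gN.l.source := fun _ h =>
  (Z.g0.ls.trans Z.gN.ls.symm).le (Z.g0.l.map_target h.2)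

theorem src : N.ι.source = N.j0.source := Subset.antisymm (fun _ h => ⟨trivial, h.2.1⟩) fun _ h => ⟨trivial, h.2, N.mj h⟩

theorem sU {b} : N.U b ⊆ N.ι.source := fun _ h => N.src.ge (N.cor h).1

theorem pos_ι : Pos (m4 P.W).I Z.X.X.I N.ι N.ι.source P.W.o Z.X.X.o :=
  pos_trans N.φ0.pos (pos_trans (pos_symm Z.g0.pl) Z.gN.pl)

theorem fix (s b : Bool) : ∀ p ∈ N.U b, (Z.ρ s).φ (N.ι p) = N.ι p := fun _ h => (Z.mN s).1 _ (N.mj (N.cor h).1)

/-- forms that are exact on one side -/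
def MS (b : Bool) : Submodule ℝ (CF Z.X.X) where
  carrier := {y | Ex P.W.X.P.I (N.U b) (pm (m4 P.W).I Z.X.X.I N.ι y.1)}
  add_mem' h h' := (h.add h').congr fun _ _ => congrFun (Dr59.pm_add _ _ _) _
  zero_mem' := Dr59.ex_of_zero fun _ _ => pm_off rfl
  smul_mem' r _ h := (Ex.smul r h).congr fun _ _ => congrFun (Dr59.pm_smul _ _ _) _

/-- forms that are cohomologous to the curvature on one side -/
def CS (b : Bool) (y : CF Z.X.X) : Prop := Ex P.W.X.P.I (N.U b) (pm (m4 P.W).I Z.X.X.I N.ι y.1 - P.c₀)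

/-- classes that restrict to `d` on one side -/
abbrev PS (b : Bool) (k : Z.X.L) : Prop := Pb N.ι (N.U b) k P.d

variable {N} {b : Bool} {y y' z : CF Z.X.X} {k k' : Z.X.L}

theorem CS.sub (h : N.CS b y) (h' : N.CS b y') : y - y' ∈ N.MS b :=
  (Ex.trans h h'.symm).congr fun _ _ => congrFun (Dr59.pm_sub _ _ _) _

theorem PS.cs (h : N.PS b k) (c : Cur k y.1) : N.CS b y :=
  cur_pb' (X := m4 P.W) (N.opU b) h P.cv c

theorem ms0 (h : ∀ p ∈ N.U b, y.1 (N.ι p) = 0) : y ∈ N.MS b := Dr59.ex_of_zero fun p m => pm_off (h p m)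

theorem ms_e (s : Bool) : eX Z H s ∈ N.MS b := ms0 fun _ m => indicator_of_notMem (fun e =>
  ((mem_rt Z.gN.toGl3).1 e).not_ge (l_le Z.gN.toGl3 le_rfl four_pos (N.cor m).2.2.2)) _

theorem ms_pl (s : Bool) (h : y ∈ N.MS b) : pl (Z.ρ s).toDif y ∈ N.MS b := Ex.congr h fun _ m =>
  (Dr59.pm_comp ((Z.ρ s).φ.mdifferentiable (by simp) _) (md_pd _ (N.sU m))).trans
    (Dr59.pm_congr (eventually_of_mem ((N.opU b).mem_nhds m) (N.fix s b)) rfl)

theorem ms_L (x : FO Z.X12) : cf (pL Z.gC x) ∈ N.MS true := ms0 fun p m =>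
  let ⟨_, h, e⟩ := N.r p m
  (cs_l Z.gC.toGl3 (fo_o x)).eq_zero fun k => by
    linarith [r_ge Z.gC.toGl3 le_rfl four_pos (neg_zero.trans_le h.1), congrArg Z.gC.n.tm e, mem_Iic.1 (mem_preimage.1 k)]

theorem ι_l {p} (m : p ∈ N.U false) : ∃ x ∈ Z.X1.Core, N.ι p = Z.gC.l (Z.g12.l x) :=
  ⟨_, (N.l p m).1, (N.l p m).2.trans (Z.as1 _ (core_o Z.g12.toGl3 (N.l p m).1)).symm⟩

theorem ms_3 (x : FO Z.X3) : p3 Z x ∈ N.MS false := ms0 fun p m =>
  let ⟨_, h, e⟩ := ι_l m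
  (cs_r Z.gC.toGl3 (fo_i x)).eq_zero fun k => by
    linarith [l_le Z.gC.toGl3 le_rfl four_pos (ko_l Z.g12 (core_o Z.g12.toGl3 h)), congrArg Z.gC.n.tm e,
      mem_Ici.1 (mem_preimage.1 k)]

theorem ms_2 (x : FO Z.X2) : ∀ b, p2 Z x ∈ N.MS b
  | true => ms_L _
  | false => ms0 fun p m =>
    let ⟨_, h, e⟩ := ι_l m
    (congrArg _ e).trans (psh_off Z.gC.l ((mem_l Z.gC.toGl3).2 ((ko_l Z.g12 (core_o Z.g12.toGl3 h)).trans_lt four_pos))
      ((cs_r Z.g12.toGl3 (fo_i x)).eq_zero fun k => by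
        linarith [l_le Z.g12.toGl3 le_rfl four_pos h.2.1, mem_Ici.1 (mem_preimage.1 k)]))

theorem md (h : ∀ b, y ∈ N.MS b) (h' : ∀ b, z ∈ N.MS b) :
    B _ y z = -(B _ y (eX Z H false) * B _ z (eX Z H false)) :=
  N.mid _ _ ⟨y.2.cl, h false, h true⟩ ⟨z.2.cl, h' false, h' true⟩

theorem md1 (h : ∀ b, y ∈ N.MS b) : B _ y (eX Z H true) = -B _ y (eX Z H false) := by
  rw [md h fun _ => ms_e true, B_ee]; simp

theorem md_fix (h : ∀ b, y ∈ N.MS b) (e : pl (Z.ρ true).toDif y = y) : B _ y (eX Z H false) = 0 :=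
  neg_eq_zero.1 ((md1 h).symm.trans (B_fix Z H e))

theorem md_pl (h : ∀ b, y ∈ N.MS b) (s : Bool) : B _ (pl (Z.ρ s).toDif y) (eX Z H false) = -B _ y (eX Z H false) := by
  rw [B_comm, B_ρ Z H, B_ee, B_comm]
  cases s
  · simp; ring
  · simp [md1 h]; ring

theorem PS.r (h : N.PS b k) (s : Bool) : N.PS b ((Z.ρ s).r k) := pb_fix _ (N.opU b) (N.fix s b) h

theorem PS.one (h : N.PS false k) (e : r1 Z k' = r1 Z k) : N.PS false k' :=
  pb_of_res (res_of_pb Z.gB.l (r1_B Z k) (e ▸ r1_B Z k')) (fun p m => mem_of_eq_of_mem (N.l p m).2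
    (Z.gB.l.map_source (core_o Z.gB.toGl3 (N.l p m).1))) h

theorem PS.three (h : N.PS true k) (e : r3 Z k' = r3 Z k) : N.PS true k' :=
  pb_of_res (res_of_pb Z.gC.r (rr_spec _ k) ((congrArg (Z.gC.Rr k') e).mp (rr_spec _ k'))) (fun p m =>
    let ⟨_, h, e⟩ := N.r p m
    mem_of_eq_of_mem e (Z.gC.r.map_source (core_i Z.gC.toGl3 h))) h

theorem y3 (h : N.PS true k) (h' : N.PS true k') : ∀ b, p3 Z (c3 Z k - c3 Z k') ∈ N.MS b
  | false => ms_3 _
  | true => by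
    have := sub_mem (sub_mem ((h.cs (cc_spec Z k)).sub (h'.cs (cc_spec Z k'))) (ms_L (N := N) (pL Z.g12
      (c1 Z k - c1 Z k')))) (ms_2 (c2 Z k - c2 Z k') true)
    convert this using 1
    show _ = _ - p1 Z _ - _
    simp only [cc, map_sub]
    abel

theorem v_eq (h : ∀ b, N.PS b k) (h' : ∀ b, N.PS b k') (e : r2 Z k = r2 Z k') :
    V k (eX Z H false) = V k' (eX Z H false) := by
  have q : cc Z k - cc Z k' = p1 Z (c1 Z k - c1 Z k') + p3 Z (c3 Z k - c3 Z k') := by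
    simp only [cc, map_sub, show c2 Z k = c2 Z k' from congrArg (cu (a := some _) (b := some _)) e]
    abel
  have m : ∀ b, p1 Z (c1 Z k - c1 Z k') ∈ N.MS b := fun b => eq_sub_of_add_eq q.symm ▸
    sub_mem (((h b).cs (cc_spec Z k)).sub ((h' b).cs (cc_spec Z k'))) (y3 (h true) (h' true) b)
  rw [← V_cc, ← V_cc, ← sub_eq_zero, ← LinearMap.sub_apply, ← map_sub, q, map_add, LinearMap.add_apply,
    md_fix m (pl_p1 Z _), B_fix Z H (pl_p3 Z _), add_zero]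

theorem e1 (h : ∀ b, N.PS b k) (h' : ∀ b, N.PS b k') (e : V k' (eX Z H true) = -V k' (eX Z H false)) (s : Bool) :
    V ((Z.ρ s).r k) (eX Z H false) = -V k (eX Z H false) := by
  have := md1 fun b => ((h b).cs (cc_spec Z k)).sub ((h' b).cs (cc_spec Z k'))
  simp only [map_sub, LinearMap.sub_apply, V_cc] at this
  rw [V_ρ Z H, B_ee]
  cases s <;> simp <;> linarith

/-! ### the positive forms -/

variable (N)

theorem cs_v : ∀ b, Cs P.W.X.P.I 2 (N.U b) (cond b P.vR P.vL)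
  | false => P.cL.mono fun _ h => lt_of_le_of_lt h N.hβ.1
  | true => P.cR.mono fun _ h => lt_of_lt_of_le N.hα.2 h

/-- the positive forms on `L` -/
def vL (b : Bool) : FO Z.L := ⟨psh N.j0 (cond b P.vR P.vL),
  Pm.Zr.fo (((N.cs_v b).psh N.j0 fun _ h => (N.cor h).1).mono (image_subset_iff.2 fun _ h => (N.cor h).2))⟩

/-- the positive forms on `X` -/
def v (b : Bool) : CF Z.X.X := pC Z.gN (N.vL b)

theorem v_eq' (b : Bool) : (N.v b).1 = psh N.ι (cond b P.vR P.vL) := psh_psh N.j0 Z.gN.l N.ι N.src N.mj (fun _ _ => rfl) _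

theorem B_v (b : Bool) (y : CF Z.X.X) :
    B _ y (N.v b) = (m4 P.W).ip (pm (m4 P.W).I Z.X.X.I N.ι y.1) (cond b P.vR P.vL) :=
  (congrArg (Z.X.X.ip y.1) (N.v_eq' b)).trans (ip_pd (X := m4 P.W) N.ι N.pos_ι (N.cs_v b) N.sU _)

theorem pm_v (b : Bool) {p} (h : p ∈ N.ι.source) : pm (m4 P.W).I Z.X.X.I N.ι (N.v b).1 p = cond b P.vR P.vL p :=
  (congrArg (pm (m4 P.W).I Z.X.X.I N.ι · p) (N.v_eq' b)).trans (Dr59.pm_psh N.ι h _)

theorem B_vv (b b' : Bool) : B _ (N.v b) (N.v b') = (m4 P.W).ip (cond b P.vR P.vL) (cond b' P.vR P.vL) :=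
  (N.B_v b' _).trans ((N.cs_v b').ip_congr fun _ h => N.pm_v b (N.sU h))

theorem B_lr : B _ (N.v false) (N.v true) = 0 := (N.B_vv _ _).trans (P.cL.ip_disj P.cR (disjoint_left.2 fun _ h k =>
  (lt_of_lt_of_le P.lt k).not_ge h))

theorem v_e (b s : Bool) : B _ (N.v b) (eX Z H s) = 0 := B_fix Z H (pl_C Z s _)

theorem ms_v : N.v false ∈ N.MS true := Dr59.ex_of_zero fun _ m =>
  (N.pm_v false (N.sU m)).trans (P.cL.eq_zero fun k => (lt_of_le_of_lt N.hα.1 m).not_ge k)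

variable {N}

theorem ms_v0 (h : y ∈ N.MS b) : B _ y (N.v b) = 0 := (N.B_v b y).trans ((N.cs_v b).ip_ex P.W.ori h)

theorem sq (h : ∀ b, z ∈ N.MS b) (s t : ℝ) : B _ (z + s • N.v false + t • N.v true) (z + s • N.v false + t • N.v true) =
    s * s * P.W.sq P.vL + t * t * P.W.sq P.vR - B _ z (eX Z H false) ^ 2 := by
  simp only [map_add, map_smul, LinearMap.add_apply, LinearMap.smul_apply, smul_eq_mul, md h h, B_comm (N.v _) z,
    ms_v0 (h _), B_comm (N.v true) (N.v false), N.B_lr]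
  rw [N.B_vv, N.B_vv]
  show _ = s * s * (m4 P.W).ip P.vL P.vL + t * t * (m4 P.W).ip P.vR P.vR - _
  simp only [cond]
  ring

variable (N)

theorem ex_v3 : ∃ x : FO Z.X3, p3 Z x = N.v true := by
  have c : Cs Z.X.X.I 2 (N.ι '' N.U true) (N.v true).1 := N.v_eq' true ▸ (N.cs_v true).psh N.ι N.sU
  have s : N.ι '' N.U true ⊆ Z.gC.r.target := MapsTo.image_subset fun p m =>
    let ⟨_, h, e⟩ := N.r p m
    mem_of_eq_of_mem e (Z.gC.r.map_source (core_i Z.gC.toGl3 h))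
  refine ⟨⟨_, Pm.Zr.fo ((c.psh Z.gC.r.symm s).mono (image_subset_iff.2 (image_subset_iff.2 fun p m => ?_)))⟩,
    Subtype.ext (psh_symm _ c s)⟩
  obtain ⟨q, h, e⟩ := N.r p m
  exact mem_of_eq_of_mem (s := Z.X3.Core) ((congrArg Z.gC.r.symm e).trans (Z.gC.r.left_inv (core_i Z.gC.toGl3 h))) h

theorem pm_j (x : FO Z.L) {p} (h : p ∈ N.j0.source) :
    pm (m4 P.W).I Z.X0.X.I N.φ0.φ (pC Z.g0 x).1 p = pm (m4 P.W).I Z.L.X.I N.j0 x.1 p :=
  (Dr59.pm_congr_right (indicator_of_mem (s := Z.g0.l.target) h.2 _)).trans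
    (Dr59.pm_comp (md_pd Z.g0.l.symm h.2) (N.φ0.φ.mdifferentiable (by simp) _))

theorem pm_ι (x : FO Z.L) {p} (h : p ∈ N.j0.source) :
    pm (m4 P.W).I Z.X.X.I N.ι (pC Z.gN x).1 p = pm (m4 P.W).I Z.L.X.I N.j0 x.1 p :=
  (Dr59.pm_comp (md_pd Z.gN.l (N.mj h)) (md_pd N.j0 h)).symm.trans (Dr59.pm_congr_right (Dr59.pm_psh _ (N.mj h) _))

theorem pm_v0 (b : Bool) : pm (m4 P.W).I Z.X0.X.I N.φ0.φ (pC Z.g0 (N.vL b)).1 = cond b P.vR P.vL := funext fun p =>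
  (em (p ∈ N.j0.source)).elim (fun h => (N.pm_j _ h).trans (Dr59.pm_psh N.j0 h _)) fun h =>
    (pm_off (indicator_of_notMem (s := Z.g0.l.target) (fun k => h ⟨trivial, k⟩) _)).trans
      ((N.cs_v b).eq_zero fun k => h (N.cor k).1).symm

/-- the class on the filled piece -/
def i0 : Z.X0.L := difE N.φ0 P.d

theorem ps_of_l {k : Z.X.L} (h : rl Z.gN.toGl3 k = rl Z.g0.toGl3 N.i0) (b : Bool) : N.PS b k :=
  have e : Pb N.j0 (N.U b) (rl Z.g0.toGl3 N.i0) P.d := pb_comp (f := Z.g0.l.symm) (g := N.φ0.φ)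
    (pb_inv Z.g0.l (rl_spec _ N.i0)) (pb_mono (difE_pb N.φ0 P.d) (subset_univ _)) fun _ m => (N.cor m).1.2
  pb_comp (f := Z.gN.l) (g := N.j0) (rl_spec _ k) (h ▸ e) fun _ m => N.mj (N.cor m).1

theorem cs_0 {x : FO Z.L} (h : Cur N.i0 (pC Z.g0 x).1) (b : Bool) : N.CS b (pC Z.gN x) :=
  ((cur_pb' isOpen_univ (difE_pb N.φ0 P.d) P.cv h).mono (subset_univ _)).congr fun _ m =>
    congrArg (· - P.c₀ _) ((N.pm_ι x (N.cor m).1).trans (N.pm_j x (N.cor m).1).symm)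

theorem ld_l {p} (h : P.W.X.τ p < P.β) : IsLocalDiffeomorphAt (m4 P.W).I (m4 (S.cap P.C).toW4).I ∞ P.l p := P.l.ld h

theorem cs_1 {x : FO Z.X1} (h : Ex Z.X1.X.I univ (x.1 - N.φ1.ps (S.cap P.C).η)) : N.CS false (p1 Z x - N.v false) :=
  ex_fac (X := m4 P.W) N.φ1 Z.gB.l (N.opU false) (fun _ m => ld_l (P := P) (lt_of_lt_of_le m N.hβ.2))
    (fun p m => core_o Z.gB.toGl3 (N.l p m).1) (fun p m => (N.l p m).2) (congrArg Subtype.val (pL_pL Z x)) h
    (fun p m => P.η p (lt_of_lt_of_le m N.hβ.2)) fun _ m => N.pm_v false (N.sU m)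

variable {N}

theorem y1 {x : FO Z.X1} (hx : N.CS false (p1 Z x - N.v false)) (h : N.PS false k) :
    (∀ b, p1 Z (x - c1 Z k) - N.v false ∈ N.MS b) ∧ B _ (p1 Z (x - c1 Z k) - N.v false) (eX Z H false) = 0 := by
  have m : ∀ b, p1 Z (x - c1 Z k) - N.v false ∈ N.MS b := fun
    | true => sub_mem (ms_L _) N.ms_v
    | false => by
      convert add_mem (add_mem (hx.sub (h.cs (cc_spec Z k))) (ms_2 (c2 Z k) false)) (ms_3 (c3 Z k)) using 1
      simp only [cc, map_sub]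
      abel
  exact ⟨m, md_fix m (by rw [map_sub, pl_p1, v, pl_C])⟩

variable (N) in
/-- forms that stay in the chamber -/
def Gd (k : Z.X.L) (w : CF Z.X.X) : Prop := ∃ z, (∀ b, z ∈ N.MS b) ∧ w = cc Z k + z + N.v false + N.v true ∧
  |B _ z (eX Z H false)| ≤ 4 * π

theorem Gd.pl {s : Bool} {w} (h : N.Gd ((Z.ρ s).r k) w) (hk : ∀ b, N.PS b k) : N.Gd k (pl (Z.ρ s).toDif w) := by
  obtain ⟨z, h1, rfl, h2⟩ := h
  have c : Cur k (Pen22.pl (Z.ρ s).toDif (cc Z ((Z.ρ s).r k))).1 := cur_dif ((Z.ρ s).pb k) (cc_spec Z _)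
  refine ⟨Pen22.pl (Z.ρ s).toDif (cc Z ((Z.ρ s).r k)) - cc Z k + Pen22.pl (Z.ρ s).toDif z, fun b => add_mem
    (((hk b).cs c).sub ((hk b).cs (cc_spec Z k))) (ms_pl s (h1 b)), ?_, ?_⟩
  · simp only [map_add, v, pl_C]
    abel
  · rwa [map_add, map_sub, LinearMap.add_apply, LinearMap.sub_apply, B_cur c, V_cc, sub_self, zero_add, md_pl h1, abs_neg]

theorem Gd.cvx {w₀ w₁ w₂} (h₀ : N.Gd k w₀) (h₁ : N.Gd k w₁) (h₂ : N.Gd k w₂) {s₀ s₁ s₂ : ℝ} (e₀ : 0 ≤ s₀) (e₁ : 0 ≤ s₁)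
    (e₂ : 0 ≤ s₂) (e : s₀ + s₁ + s₂ = 1) : N.Gd k (s₀ • w₀ + s₁ • w₁ + s₂ • w₂) := by
  obtain ⟨z₀, a₀, rfl, b₀⟩ := h₀
  obtain ⟨z₁, a₁, rfl, b₁⟩ := h₁
  obtain ⟨z₂, a₂, rfl, b₂⟩ := h₂
  obtain rfl : s₂ = 1 - s₀ - s₁ := by linarith
  refine ⟨s₀ • z₀ + s₁ • z₁ + (1 - s₀ - s₁) • z₂, fun b => add_mem (add_mem (Submodule.smul_mem _ _ (a₀ b))
    (Submodule.smul_mem _ _ (a₁ b))) (Submodule.smul_mem _ _ (a₂ b)), by module, ?_⟩
  simp only [map_add, map_smul, LinearMap.add_apply, LinearMap.smul_apply, smul_eq_mul]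
  rw [abs_le] at *
  constructor <;> nlinarith [mul_le_mul_of_nonneg_left b₀.1 e₀, mul_le_mul_of_nonneg_left b₁.1 e₁,
    mul_le_mul_of_nonneg_left b₂.1 e₂, mul_le_mul_of_nonneg_left b₀.2 e₀, mul_le_mul_of_nonneg_left b₁.2 e₁,
    mul_le_mul_of_nonneg_left b₂.2 e₂]

end NH

end Crest.Agent.X212.Pen22
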