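import Crest.Agent.X212.Pen22.Qh

/-!
# Row 212, layer GEO (helper22): the marks of a model pentagon, and the triad
-/

set_option autoImplicit false
set_option linter.unusedSectionVars false

open Set Filter Topology Function Module
open scoped ContDiff Manifold
open Crest.Agent.X212.Dr59 (Cs Cl Ex HZ Bd)
open Crest.Agent.X212.Rod53 (Z2 PM dt)
open Crest.Agent.X212.Rfl19 Crest.Agent.X212.Nvg56 Crest.Agent.X212.Mv17

noncomputable section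

universe u

namespace Crest.Agent.X212.Pen22

open Bor5.T Geo28 Real Flo2

theorem seg_of {X : M4} {d : X.L} (c η η' : CF X) (h : Cur d c.1) (h₁ : 0 < B X (η - c) (η - c))
    (h₂ : 0 < B X (η' - c) (η' - c)) (h₃ : 0 < B X (η - c) (η' - c)) : X.Seg d η η' := fun t ht =>
  ps_of c ((1 - t) • η + t • η') h (by
    rw [show (1 - t) • η + t • η' - c = (1 - t) • (η - c) + t • (η' - c) by module]
    exact seg_pos B_comm h₁ h₂ h₃ ht)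

theorem crs_of {X : M4} {d : X.L} (c η η' : CF X) (h : Cur d c.1) (h₁ : 0 < B X (η - c) (η - c))
    (h₂ : 0 < B X (η' - c) (η' - c)) (h₃ : B X (η - c) (η' - c) < 0) : X.Crs d η η' := ⟨_, c.2, h, h₁, h₂, h₃⟩

theorem wall' {X : M4} {A A' c p q : CF X} {x x' a v : ℝ} (hp : p = ep x • A) (hq : q = ep x' • A') (hx : x = B X c A)
    (hx' : x' = B X c A') (hA : 4 * π ^ 2 < B X A A) (h' : B X A' A' = B X A A) (h1 : B X A A' = B X A A + 2 * a * a)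
    (h2 : B X c A' = B X c A + 2 * a * v) (hv : v * v = 4 * π ^ 2) (hc : B X c c = -(4 * π ^ 2)) :
    0 < B X (p - c) (p - c) ∧ 0 < B X (q - c) (q - c) ∧ ((0 ≤ x ↔ 0 ≤ x') → 0 < B X (p - c) (q - c)) ∧
      (¬(0 ≤ x ↔ 0 ≤ x') → B X (p - c) (q - c) < 0) := by
  subst hp hq hx hx'
  exact wall B_comm hA h' h1 h2 hv hc

section kap

variable {G : CG} {a : Option Q3} {B C : Q3} {Z : PG0 G a B C} {H : CH G} (R : Rel G H)

variable (H) in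
/-- the classes over `l` with the value `2 π` on the first sphere -/
def K0 (l : Z.L.L) (k : Z.X.L) : Prop := Al Z k ∧ rl Z.gN.toGl3 k = l ∧ V k (eX Z H false) = 2 * π

include R

theorem K0.of {l k} (al : Al Z k) (e : rl Z.gN.toGl3 k = l) (h : V k (eX Z H true) = 2 * π) :
    K0 H l ((Z.ρ true).r k) :=
  ⟨(al_ρ Z _).2 al, (rl_ρ Z _ k).trans e, by
    have := V_al R al
    rw [V_ρ Z H, B_ee, h]; norm_num; linarith⟩

theorem K0.one {l k} (h : K0 H l k) : V ((Z.ρ true).r k) (eX Z H true) = 2 * π := by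
  rw [V_ρ Z H, B_ee, V_al R h.1, h.2.2]; norm_num; ring

theorem K0.up {l k} (h : K0 H l k) : ∃ k', K0 H l k' ∧ ∀ y, V k' y = V k y +
    4 * π * (Pen22.B _ y (eX Z H false) + Pen22.B _ y (eX Z H true)) := by
  have e : V ((Z.ρ false).r k) (eX Z H true) = 2 * π := by
    rw [V_ρ Z H, B_ee, V_al R h.1, h.2.2]; norm_num; ring
  refine ⟨_, .of R ((al_ρ Z _).2 h.1) ((rl_ρ Z false k).trans h.2.1) e, fun y => ?_⟩
  rw [V_ρ Z H, e, V_ρ Z H, h.2.2]; ring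

theorem K0.down {l k} (h : K0 H l k) : ∃ k', K0 H l k' ∧ ∀ y, V k' y = V k y -
    4 * π * (Pen22.B _ y (eX Z H false) + Pen22.B _ y (eX Z H true)) := by
  have al := (al_ρ Z true).2 h.1
  have e : V ((Z.ρ true).r k) (eX Z H false) = -(2 * π) := by linarith [V_al R al, h.one R]
  refine ⟨(Z.ρ false).r ((Z.ρ true).r k), ⟨(al_ρ Z _).2 al, (rl_ρ Z _ _).trans ((rl_ρ Z _ k).trans h.2.1), ?_⟩, fun y => ?_⟩
  · rw [V_ρ Z H, B_ee, e]; norm_num; ring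
  · rw [V_ρ Z H, e, V_ρ Z H, V_al R h.1, h.2.2]; ring

theorem K0.tor {l k k'} (h : K0 H l k) (h' : K0 H l k') : ∃ n : ℤ, (n = 0 → k = k') ∧ ∀ y, V k' y = V k y +
    n * (4 * π * (Pen22.B _ y (eX Z H false) + Pen22.B _ y (eX Z H true))) := by
  have e : rr Z.gN.toGl3 k = rr Z.gN.toGl3 k' := H.inj _ _ _ _ (exists_cur _).choose_spec (exists_cur _).choose_spec
    fun s => (V_e Z H k s).symm.trans (Eq.trans (by
      cases s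
      exacts [h.2.2.trans h'.2.2.symm, by rw [V_al R h.1, V_al R h'.1, h.2.2, h'.2.2]]) (V_e Z H k' s))
  obtain ⟨n, h1, h2⟩ := R.tor Z.gN.toGl3 k k' _ _ (rl_spec _ k) (rr_spec _ k) ((h.2.1.trans h'.2.1.symm).symm ▸ rl_spec _ k')
    (e.symm ▸ rr_spec _ k')
  exact ⟨n, h1, fun y => (h2 _ _ _ (exists_cur _).choose_spec (exists_cur _).choose_spec y.2).trans
    (congrArg (V k y + ·) ((mul_assoc _ _ _).trans (mul_left_comm _ _ _)))⟩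

theorem K0.kap {l k₀} (h : K0 H l k₀) (ns : ∃ y, Pen22.B _ y (eX Z H false + eX Z H true) ≠ 0) : ∃ κ : ℤ → Z.X.L,
    Injective κ ∧ (∀ n, K0 H l (κ n)) ∧ (∀ k, K0 H l k → ∃ n, κ n = k) ∧ ∀ n y, V (κ n) y = V k₀ y +
      n * (4 * π * (Pen22.B _ y (eX Z H false) + Pen22.B _ y (eX Z H true))) := by
  have : ∀ n : ℤ, ∃ k, K0 H l k ∧ ∀ y, V k y = V k₀ y +
      n * (4 * π * (Pen22.B _ y (eX Z H false) + Pen22.B _ y (eX Z H true))) := fun n => by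
    induction n with
    | zero => exact ⟨k₀, h, by simp⟩
    | succ n ih =>
      obtain ⟨k, h1, h2⟩ := ih
      exact (h1.up R).imp fun k' e => ⟨e.1, fun y => by rw [e.2, h2]; push_cast; ring⟩
    | pred n ih =>
      obtain ⟨k, h1, h2⟩ := ih
      exact (h1.down R).imp fun k' e => ⟨e.1, fun y => by rw [e.2, h2]; push_cast; ring⟩
  choose κ h1 h2 using this
  obtain ⟨y, hy⟩ := ns
  have hy' := mul_ne_zero (mul_pos four_pos pi_pos).ne' ((map_add _ _ _).symm.trans_ne hy)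
  refine ⟨κ, fun n m e => Int.cast_injective (mul_right_cancel₀ hy' (add_left_cancel
    ((h2 n y).symm.trans (e ▸ h2 m y)))), h1, fun k hk => ?_, h2⟩
  obtain ⟨n, -, e⟩ := h.tor R hk
  obtain ⟨m, e1, e2⟩ := (h1 n).tor R hk
  exact ⟨n, e1 (Int.cast_eq_zero.1 ((mul_eq_zero.1 (left_eq_add.1 (((h2 n y).trans (e y).symm).trans
    (e2 y)))).resolve_right hy'))⟩

end kap

variable {K : Sk.{u}} {Q : Prd} (E : Eng K Q) (Lv : Lvs)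

section mdl

variable {G : CG} {A B C : Q3} {Z : PG0 G (some A) B C} {H : CH G} (ph : PH H Z) (R : Rel G H) {D : Dt Z}
  {a : CF Z.X.X} (ha : 4 * π ^ 2 < Pen22.B _ a a)
  (hη : ∀ k, cf (glu Z.gC (glu Z.g12 D.η1 D.η2) D.η3 k) = ep (V k a) • a)
include ph

theorem bij0 (hL : D.IL = {l | Z.L.k3.Cl l G.c0}) {T} (O : PO E.toPre (D.pg Lv) T) :
    Bijective fun j => K.s (O.Pn.ι j) := by
  obtain ⟨-, c1, -⟩ := cyl0 Lv ph
  choose cl hcl using fun j => (clsStmt.ki Z.X0 (O.i j).1).exists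
  have sj := fun j => show K.s (O.Pn.ι j) = E.lab A (cl j) from E.hs (O.rι j) _ (hcl j)
  refine ⟨fun j j' e => O.i.injective (Subtype.ext ((c1 _).unique (hcl j)
    ((E.lab A).injective ((sj j').symm.trans (e.symm.trans (sj j))) ▸ hcl j'))), fun c => ?_⟩
  obtain ⟨i, hi, -⟩ := c1 ((E.lab A).symm c)
  obtain ⟨j, hj⟩ := O.i.surjective ⟨i, _, hL.ge (cl_0 Z i), rl_spec _ i⟩
  exact ⟨j, (E.hs (O.rι j) _ ((congrArg (Z.X0.ki.Cl · ((E.lab A).symm c)) (congrArg Subtype.val hj)).mpr hi)).trans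
    ((E.lab A).apply_symm_apply c)⟩

include R ha

theorem a_ne : Pen22.B _ a (sX Z H) ≠ 0 :=
  let ⟨_, hy⟩ := ex_ns ph
  (rk3 ph.bd).ne B_comm B_ss (B_ee Z H false false) (B_es false) hy (lt_trans (by positivity) ha)

include hη

theorem mrk {s : Bool} {k : Z.X.L} (al : Al Z k) {Γ} (h : Mrk E.toPre (D.pg Lv) s k Γ) :
    ∃ n : ℤ, n ≠ 0 ∧ V k (eX Z H s) = 2 * π * n ∧ K.tp Γ ((1 - n ^ 2) / 4) ∧ (n = 1 →
      ((0 ≤ V k a ↔ 0 ≤ V ((Z.ρ s).r k) a) → K.hi0 Γ) ∧ (¬(0 ≤ V k a ↔ 0 ≤ V ((Z.ρ s).r k) a) → K.hi1 Γ)) := by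
  obtain ⟨n, hn⟩ := V_int Z H s k
  have hE : Pen22.B _ (eX Z H s) (eX Z H s) = -1 := (B_ee Z H s s).trans (if_pos rfl)
  obtain ⟨f₂, f₃, e1, e2, e3, e4, e5, e6⟩ := (rk3 ph.bd).bas B_comm B_ss hE (B_es s) (lt_trans (by positivity) ha)
    (a_ne ph R ha)
  obtain ⟨b, dg⟩ := deg3 ph.bd e1 e2 e3 (by rw [hE]; norm_num) e4 e5
  have c := e6 (cf (cu k)) (by rw [← V_cu, map_add, V_al R al, add_neg_cancel])
  rw [← V_cu Z k (eX Z H s), hn] at c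
  refine ⟨n, fun e => V_ne Z H s k (by simp [hn, e]), hn, ?_, fun e => ?_⟩
  · convert h.tp nofun ph.h1 ((-n ^ 2 - 3) / 4) (dg k (cf (cu k)) _ (cu_spec k) ?_) using 1
    · ring
    · rw [c]; push_cast; field_simp; ring
  have w := wall' (hη k) ((congrArg (pl (Z.ρ s).toDif) (hη ((Z.ρ s).r k))).trans (map_smul _ _ _)) (V_cu Z k a)
    ((V_r (Z.ρ s) k a).trans (V_cu Z k _)) (v := 2 * π) ha (B_pl _ _ _) (B_ρ Z H s a a)
    (by rw [B_ρ Z H, ← V_cu Z k (eX Z H s), hn, e]; simp) (by ring) (by rw [c, e]; simp; ring)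
  have w1 := fun p => seg_of _ _ _ (cu_spec k) w.1 w.2.1 (w.2.2.1 p)
  have w2 := fun p => crs_of _ _ _ (cu_spec k) w.1 w.2.1 (w.2.2.2 p)
  exact ⟨fun p => h.hi0 nofun (w1 p), fun p => h.hi1 nofun ph.h1 b (w2 p)⟩

theorem mdl (hL : D.IL = {l | Z.L.k3.Cl l G.c0})
    (hN : ∀ x, G.N.ki.Cl x G.c0 → pv x (H.e false) = 2 * π → x ∈ D.IN) (ne : Nonempty A.L) {T}
    (O : PO E.toPre (D.pg Lv) T) : Nonempty O.Pn.Mdl2 := by
  obtain ⟨s₀⟩ := ne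
  obtain ⟨-, c1, c2⟩ := cyl0 Lv ph
  obtain ⟨t1, t2, t3⟩ := top0 Lv ph
  obtain ⟨i₀, hi₀, -⟩ := c1 s₀
  have l₀ := cl_0 Z i₀
  have s₁ := ((cl3 Z.g0 (rl_spec _ i₀)).1 s₀).2 hi₀
  obtain ⟨x₀, c₀, x1, x2, x3⟩ := H.one
  obtain ⟨k₀, k1, k2⟩ := g3_mv Z.gN.toGl3 l₀ x2
  obtain ⟨κ, κ1, κ2, κ3, κ4⟩ := K0.kap R (k₀ := k₀) ⟨(al_iff Z).1 ⟨_, k2, x2⟩, rl_eq _ k1,
    (V_e Z H k₀ false).trans ((congrArg (pv · _) (rr_eq _ k2)).trans ((pv_eq x1 (H.zr false)).symm.trans x3))⟩ (ex_ns ph)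
  have mem : ∀ n, κ n ∈ D.M := fun n => (D.sat _ (κ2 n).1).2 ⟨hL.ge ((al_L Z).2 (κ2 n).1),
    hN _ (κ2 n).1 ((V_e Z H _ _).symm.trans (κ2 n).2.2)⟩
  obtain ⟨W₁, W₂, w1, w2, od⟩ := odd_walls (mul_ne_zero (mul_pos four_pos pi_pos).ne'
    ((map_add _ _ _).symm.trans_ne (a_ne ph R ha))) (V k₀ a) (V k₀ a + 4 * π * Pen22.B _ a (eX Z H false))
  have v1 : ∀ n, n ∈ W₁ ↔ ¬(0 ≤ V (κ n) a ↔ 0 ≤ V ((Z.ρ false).r (κ n)) a) := fun n =>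
    (w1 n).trans (not_congr (iff_congr (κ4 n a ▸ Iff.rfl) (iff_of_eq (congrArg (0 ≤ ·) (by
      linarith [V_ρ Z H false (κ n) a, κ4 n a, congrArg (Pen22.B _ a (eX Z H false) * ·) (κ2 n).2.2])))))
  have v2 : ∀ n, n ∈ W₂ ↔ ¬(0 ≤ V ((Z.ρ true).r (κ n)) a ↔ 0 ≤ V ((Z.ρ true).r ((Z.ρ true).r (κ n))) a) := fun n =>
    (w2 n).trans (not_congr (iff_comm.trans (iff_congr (iff_of_eq (congrArg (0 ≤ ·) (by
      linarith [V_ρ Z H true (κ n) a, κ4 n a, congrArg (Pen22.B _ a (eX Z H true) * ·)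
        ((V_al R (κ2 n).1).trans (congrArg Neg.neg (κ2 n).2.2))])))
      (iff_of_eq (congrArg (0 ≤ ·) ((κ4 n a).symm.trans (congrArg (V · a) ((Z.ρ true).rr _).symm)))))))
  have lb : ∀ {s k Γ}, Mrk E.toPre (D.pg Lv) s k Γ → rl Z.gN.toGl3 k = rl Z.g0.toGl3 i₀ →
      K.s Γ = E.lab A s₀ ∧ K.t Γ = E.lab A s₀ := fun {_ k _} h e =>
    ⟨h.s' _ (((cl3 Z.gN (rl_spec _ k)).1 _).1 (e ▸ s₁)), h.t' _ (((cl3 Z.gN (rl_spec _ k)).2 _).1 (e ▸ il_io Lv ph l₀ s₁))⟩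
  have lb' : ∀ {s k Γ}, Mrk E.toPre (D.pg Lv) s k Γ → Al Z k → K.s Γ = E.lab A s₀ →
      rl Z.gN.toGl3 k = rl Z.g0.toGl3 i₀ := fun {_ k _} h al e =>
    let ⟨c, hc, _⟩ := clsStmt.ki Z.X k
    il_eq Lv ph ((al_L Z).2 al) l₀ (((cl3 Z.gN (rl_spec _ k)).1 c).2 hc)
      ((E.lab A).injective ((h.s' c hc).symm.trans e) ▸ s₁)
  have tp : ∀ {s k Γ}, Mrk E.toPre (D.pg Lv) s k Γ → Al Z k → ∃ r ≤ 0, K.tp Γ r := fun h al =>
    let ⟨n, h1, _, h2, _⟩ := mrk E Lv ph R ha hη al h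
    ⟨_, by
      have : (1 : ℚ) ≤ n ^ 2 := by exact_mod_cast (one_le_sq_iff_one_le_abs n).2 (Int.one_le_abs h1)
      linarith, h2⟩
  have ww : ∀ {s k Γ}, Mrk E.toPre (D.pg Lv) s k Γ → Al Z k → V k (eX Z H s) = 2 * π →
      ¬(0 ≤ V k a ↔ 0 ≤ V ((Z.ρ s).r k) a) → K.hi1 Γ ∧ K.tp Γ 0 := fun h al e p => by
    obtain ⟨n, -, h1, h2, h3⟩ := mrk E Lv ph R ha hη al h
    obtain rfl : n = 1 := Int.cast_eq_one.1 ((mul_eq_left₀ two_pi_pos.ne').1 (h1.symm.trans e))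
    exact ⟨(h3 rfl).2 p, by simpa using h2⟩
  have nn : ∀ {s k Γ}, Mrk E.toPre (D.pg Lv) s k Γ → Al Z k → (Z.ρ s).half k → (V k (eX Z H s) = 2 * π →
      (0 ≤ V k a ↔ 0 ≤ V ((Z.ρ s).r k) a)) → K.hi0 Γ ∨ ∃ r < 0, K.tp Γ r := fun h al e p => by
    obtain ⟨n, -, h1, h2, h3⟩ := mrk E Lv ph R ha hη al h
    rw [V_half Z H, h1, mul_pos_iff_of_pos_left two_pi_pos, Int.cast_pos] at e
    rcases (Int.add_one_le_of_lt e).eq_or_lt with rfl | e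
    · exact .inl ((h3 rfl).1 (p (h1.trans (by simp))))
    · have : (1 : ℚ) < n := by exact_mod_cast e
      exact .inr ⟨_, by nlinarith, h2⟩
  refine ⟨⟨fun j => E.hi1 (O.rι j) t1 t2 Z.g0.nT, fun j => ?_, fun j => ?_, bij0 E Lv ph hL O,
    E.qhs A, E.lab A s₀, fun k => Al Z (O.m k).1, fun k => (congrArg (Al Z) (O.r1 k)).to_iff.trans (al_ρ Z _),
    fun k => (congrArg (Al Z) (O.r2 k)).to_iff.trans (al_ρ Z _), fun k c => (O.dd1 k c).trans (al_iff Z).not,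
    fun k c => (O.dd2 k c).trans (al_iff Z).not, fun k => tp (O.k1 k), fun k => tp (O.k2 k),
    W₁.map ⟨fun n => O.m.symm ⟨κ n, mem n⟩, fun _ _ e => κ1 (congrArg Subtype.val (O.m.symm.injective e))⟩,
    W₂.map ⟨fun n => O.m.symm ⟨(Z.ρ true).r (κ n), D.rM _ _ (mem n)⟩, fun _ _ e =>
      κ1 ((Involutive.injective (Z.ρ true).rr) (congrArg Subtype.val (O.m.symm.injective e)))⟩,
    by rwa [Finset.card_map, Finset.card_map], fun k hk => ?_, fun k hk => ?_, fun k hk hf al e => ?_,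
    fun k hk hf al e => ?_, O.ne ⟨_, hL.ge l₀⟩⟩⟩
  · simpa only [show (D.pg Lv).X0.nb = 0 from Z.g0.nT, Nat.cast_zero, mul_zero, sub_zero] using E.tp (O.rι j) t1 0 (t3 _)
  · obtain ⟨c, hc, -⟩ := clsStmt.ki Z.X0 (O.i j).1
    exact (E.ht (O.rι j) _ ((c2 _ _).1 hc)).trans (E.hs (O.rι j) _ hc).symm
  · obtain ⟨n, hn, e⟩ := Finset.mem_map.1 hk
    have h := O.k1 k
    have e' : (O.m k).1 = κ n := congrArg Subtype.val (O.m.symm_apply_eq.1 e).symm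
    rw [O.h1]
    rw [e'] at h ⊢
    exact ⟨(V_half Z H _ _).2 (two_pi_pos.trans_eq (κ2 n).2.2.symm), (κ2 n).1,
      and_assoc.1 ⟨ww h (κ2 n).1 (κ2 n).2.2 ((v1 n).1 hn), lb h (κ2 n).2.1⟩⟩
  · obtain ⟨n, hn, e⟩ := Finset.mem_map.1 hk
    have h := O.k2 k
    have e' : (O.m k).1 = (Z.ρ true).r (κ n) := congrArg Subtype.val (O.m.symm_apply_eq.1 e).symm
    have al := (al_ρ Z true).2 (κ2 n).1
    rw [O.h2]
    rw [e'] at h ⊢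
    exact ⟨(V_half Z H _ _).2 (two_pi_pos.trans_eq ((κ2 n).one R).symm), al,
      and_assoc.1 ⟨ww h al ((κ2 n).one R) ((v2 n).1 hn), lb h ((rl_ρ Z _ _).trans (κ2 n).2.1)⟩⟩
  · refine nn (O.k1 k) al ((O.h1 k).1 hf) fun v => by_contra fun p => hk ?_
    obtain ⟨n, hn⟩ := κ3 _ ⟨al, lb' (O.k1 k) al e, v⟩
    exact Finset.mem_map.2 ⟨n, (v1 n).2 (hn ▸ p), O.m.symm_apply_eq.2 (Subtype.ext hn)⟩
  · refine nn (O.k2 k) al ((O.h2 k).1 hf) fun v => by_contra fun p => hk ?_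
    obtain ⟨n, hn⟩ := κ3 _ (K0.of R al (lb' (O.k2 k) al e) v)
    have hn' := (congrArg (Z.ρ true).r hn).trans ((Z.ρ true).rr _)
    exact Finset.mem_map.2 ⟨n, (v2 n).2 (hn' ▸ p), O.m.symm_apply_eq.2 (Subtype.ext hn')⟩

end mdl

theorem T3.rot {τ : Tub} {a b e : Z2} (h : T3 τ a b e) : T3 τ b e a := by
  obtain ⟨a', c', h1, h2 | h2, rfl, h3⟩ := h <;> subst h2
  · exact ⟨_, -a', .refl _, (PM.trans (.inr rfl) h1), by abel, by simp only [dt, Prod.fst_add, Prod.snd_add] at h3 ⊢; linarith⟩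
  · exact ⟨_, a', .inr rfl, h1, by abel, by
      simp only [dt, Prod.fst_add, Prod.snd_add, Prod.fst_neg, Prod.snd_neg] at h3 ⊢; linarith⟩

include Lv

/-- the caps occur in a model pentagon -/
theorem has2 {G : CG} {H : CH G} (R : Rel G H) (hM : ModStmt)
    (cut : ∀ (τ : Tub) (a b e : Z2) (A B C : Q3) (f : Fo τ A.toO3 a) (g : Fo τ B.toO3 b) (h : Fo τ C.toO3 e), T3 τ a b e →
      ∃ P : PG0 G (some A) B C, PH H P ∧ Hw f g P.X1 ∧ Hw g h P.X2 ∧ Hw h f P.X3)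
    (IN : Set G.N.L) (rN : ∀ s, ∀ x ∈ IN, (G.ρ s).r x ∈ IN)
    (hN : ∀ x, G.N.ki.Cl x G.c0 → pv x (H.e false) = 2 * π → x ∈ IN) : (E.cap G IN).Has2 := by
  obtain ⟨τ, A, B, C, h1, ⟨f⟩, ⟨g⟩, ⟨h⟩, ne⟩ := hM
  obtain ⟨Z, ph, -⟩ := cut τ _ _ _ A B C f g h ⟨_, _, .refl _, .refl _, rfl, by simp [dt, h1]⟩
  obtain ⟨D, a, -, -, -, -, rfl, e, ha, hη⟩ := ex_dt Lv ph {k | rr Z.gN.toGl3 k ∈ IN} IN rN
    (fun s k m => (congrArg (· ∈ IN) (rr_ρ Z s k)).mpr (rN s _ m)) fun _ _ => Iff.rfl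
  obtain ⟨O⟩ := E.pen G _ B C (D.pg Lv) _ fun _ _ _ => Iff.rfl
  exact ⟨_, _, _, _, _, _, _, _, _, O.Pn, mdl E Lv ph R ha hη e hN ne O⟩

theorem rp_of {A B : Q3} {c : Cob A B} {τ : Tub} {a b : Z2} {f : Fo τ A.toO3 a} {g : Fo τ B.toO3 b} (h : Hnd c f g)
    {T : Pm (some A.toO3) (some B.toO3) none} (w : Hw f g T) {p : c.L → K.F (E.ob A) (E.ob B)} (hp : ∀ d, E.RC c (p d) d)
    {I : Set T.L} (hI : I = univ) {σ : I → K.F (E.ob A) (E.ob B)} {η : T.L → T.Fm}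
    (hσ : ∀ d, E.Rep (some A) (some B) (σ d) T d (η d)) : ∃ e : c.L ≃ I, ∀ d, K.Htp (p d) (σ (e d)) := by
  subst hI
  obtain ⟨e, he⟩ := Lv.cob.1 A B c
  obtain ⟨φ⟩ := w c e h he
  refine ⟨(difE φ.toDif).trans (Equiv.Set.univ _).symm, fun d => ?_⟩
  obtain ⟨x, hx⟩ := E.rc_of e d
  exact ((hp d).htp Lv ⟨_, _, he, hx⟩).trans' (E.htp_wk Lv hx (hσ _) φ (difE_pb φ.toDif d) nofun)

/-- **PENT-T** -/
theorem triad (hC : CutStmt) (hR : RelStmt) (hM : ModStmt) : TriadStmt E := by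
  intro A B C c₁ c₂ c₃ τ a b e f g h t h₁ h₂ _ o p₁ p₂ r₁ r₂
  obtain ⟨G, H, cut, -⟩ := hC
  have po : ∀ {A B C : Q3} (Z : PG0 G (some A) B C), PH H Z → ∃ D : Dt Z, D.I1 = univ ∧ D.I2 = univ ∧ D.I3 = univ ∧
      D.IN = univ ∧ D.IL = {l | Z.L.k3.Cl l G.c0} ∧ Nonempty (PO E.toPre (D.pg Lv) fun _ _ _ => True) := fun Z ph =>
    let ⟨D, _, e1, e2, e3, e4, e5, e6, _⟩ := ex_dt Lv ph univ univ (fun _ _ _ => trivial) (fun _ _ _ => trivial)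
      fun _ _ => Iff.rfl
    ⟨D, e1, e2, e3, e5, e6, E.pen G _ _ _ (D.pg Lv) _ fun _ _ _ => iff_of_true trivial fun _ _ _ _ => e4.ge trivial⟩
  obtain ⟨Z, ph, w₁, w₂, -⟩ := cut τ _ _ _ A B C f g h t
  obtain ⟨D, e1, e2, -, -, -, ⟨O⟩⟩ := po Z ph
  refine ⟨⟨_, _, O.D0, rp_of E Lv h₁ w₁ r₁ e1 O.rf, rp_of E Lv h₂ w₂ r₂ e2 O.rg⟩, ?_⟩
  obtain ⟨Z, ph, w₂, -, w₁⟩ := cut τ _ _ _ B C A g h f (T3.rot t)
  obtain ⟨D, e1, -, e3, e4, e5, ⟨O⟩⟩ := po Z ph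
  obtain ⟨c0, c1, -⟩ := cyl0 Lv ph
  refine ⟨_, _, _, O.D0, O.D1, _, O.Pn, rp_of E Lv h₁ w₁ r₁ e3 O.rh, rp_of E Lv h₂ w₂ r₂ e1 O.rf,
    has2 E Lv (hR G H) hM cut _ D.rN fun _ _ _ => e4.ge trivial, fun j => o.cyl Lv (O.rι j) c0 Z.g0.nT,
    bij0 E Lv ph e5 O⟩

end Crest.Agent.X212.Pen22
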