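import Crest.Agent.X212.Pen22.Nv
import Crest.Agent.X212.Pen22.Tr

/-!
# Row 212, layer GEO (helper22): the pentagon of the non-vanishing statement
-/

set_option autoImplicit false
set_option linter.unusedSectionVars false

open Set Filter Topology Function Module
open scoped ContDiff Manifold
open Crest.Agent.X212.Dr59 (Cs Cl Ex HZ pm psh)
open Crest.Agent.X212.Rfl19 Crest.Agent.X212.Nvg56 Crest.Agent.X212.Mv17

noncomputable section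

universe u

namespace Crest.Agent.X212.Pen22

open Bor5.T Geo28 Real Flo2

/-- the classes of the plumbing with the least value -/
def IN {G : CG} (H : CH G) : Set G.N.L := {x | G.N.ki.Cl x G.c0 ∧ |pv x (H.e false)| = 2 * π}

theorem in_ρ {G : CG} {H : CH G} (R : Rel G H) (s : Bool) (x : G.N.L) (h : x ∈ IN H) : (G.ρ s).r x ∈ IN H := by
  have al := (rf_ki (G.ρ s) x _).1 h.1
  have a := pv_ρ H s x false
  have b : pv _ (H.e false) + pv _ (H.e true) = 0 := R.al _ _ (exists_cur _).choose_spec al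
  refine ⟨al, (abs_neg _).symm.trans (Eq.trans (congrArg abs ?_) h.2)⟩
  cases s <;> simp at a <;> linarith

theorem null_seg {X : M4} {d : X.L} {η η' η'' : CF X} (e : ∀ y, B X y η'' = B X y η') (h : X.Seg d η η') :
    X.Seg d η η'' := fun t ht => null_ps (η := (1 - t) • η + t • η') (η' := (1 - t) • η + t • η'')
      (fun y => by simp only [map_add, map_smul, e]) (h t ht)

theorem Seg.one {X : M4} {d : X.L} {η η' : X.Fm} (h : X.Seg d η η') : X.Ps d η ∧ X.Ps d η' :=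
  ⟨by simpa using h 0 ⟨le_rfl, zero_le_one⟩, by simpa using h 1 ⟨zero_le_one, le_rfl⟩⟩

theorem B_ex {X : M4} {η η' : CF X} (h : Ex X.I univ (η'.1 - η.1)) (y : CF X) : B X y η' = B X y η := by
  rw [← sub_eq_zero, ← map_sub, B_comm]
  exact y.2.ip_ex X.ori h

theorem ps_fo {a b x : Option O3} {T : Pm a b x} {d : T.L} (c η : FO T) (h : Cur d c.1)
    (h' : 0 < B T.X (cf (η - c)) (cf (η - c))) : T.X.Ps d η.1 := ⟨c.1, (cf c).2, h, h'⟩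

theorem tri_of {X : M4} {d : X.L} (η₀ η₁ η₂ : CF X) (h : ∀ s₀ s₁ s₂ : ℝ, 0 ≤ s₀ → 0 ≤ s₁ → 0 ≤ s₂ → s₀ + s₁ + s₂ = 1 →
    X.Ps d (s₀ • η₀ + s₁ • η₁ + s₂ • η₂).1) : X.Tri d η₀ η₁ η₂ := h

theorem seg_fo {a b x : Option O3} {T : Pm a b x} {d : T.L} (η η' : FO T)
    (h : ∀ t ∈ Icc (0 : ℝ) 1, T.X.Ps d ((1 - t) • η + t • η').1) : T.X.Seg d η.1 η'.1 := h

theorem null_sq {V : Type*} [AddCommGroup V] [Module ℝ V] {B : V →ₗ[ℝ] V →ₗ[ℝ] ℝ} (hB : ∀ y z, B y z = B z y) {z w : V}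
    (h : B z z = 0) (h' : B z w = 0) : B (z + w) (z + w) = B w w := by simp [h, h', hB w z]

theorem seg_ex {X : M4} {d : X.L} {η b c e a : X.Fm} (hη : Cs X.I 2 univ η) (hb : Cs X.I 2 univ b) (hc : Cs X.I 2 univ c)
    (he : Cs X.I 2 univ e) (w : CF X) (h : w.1 = a + c + e) (k : Ex X.I univ (a - b)) (s : X.Seg d η (b + c + e)) :
    X.Seg d η w := null_seg (η := ⟨η, hη⟩) (η' := ⟨_, (hb.add hc).add he⟩)
      (B_ex (by rwa [h, add_sub_add_right_eq_sub, add_sub_add_right_eq_sub])) s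

theorem cvx_eq {V : Type*} [AddCommGroup V] [Module ℝ V] {t : ℝ} {a a' b x c₁ c₂ c₃ z v : V}
    (h : (1 - t) • (a + (b + x)) + t • (a' + (b + x)) + (0 : ℝ) • (a + (b + x)) = c₁ + c₂ + c₃ + z + v + x) :
    z - (b - c₃) + v = (1 - t) • a + t • a' - (c₁ + c₂) := by linear_combination (norm := module) -h

theorem sq_le {t : ℝ} (h : |t| ≤ 4 * π) : t ^ 2 ≤ 16 * π ^ 2 := by nlinarith [sq_abs t, abs_nonneg t, pi_pos]

section cx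

variable {Q : Prd} {G : CG} {H : CH G} {S : Scene} {P : Pent S Q (16 * π ^ 2)} {Z : PG0 G none (S.ob P.i) (S.ob P.j)}

/-- the choices -/
structure Cx (N : NH H P Z) where
  k₀ : Z.X.L
  p₀ : ∀ b, N.PS b k₀
  v₀ : V k₀ (eX Z H false) = 2 * π
  a₀ : V k₀ (eX Z H true) = -V k₀ (eX Z H false)
  x : FO Z.X1
  sx : N.CS false (p1 Z x - N.v false)
  hx : ∀ y, B _ y (cf x) = Z.X1.X.ip y (N.φ1.ps (S.cap P.C).η)
  x₃ : FO Z.X3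
  h₃ : p3 Z x₃ = N.v true
  cL : FO Z.L
  hL : Cur N.i0 (pC Z.g0 cL).1

theorem ex_cx (Lv : Lvs) (R : Rel G H) (N : NH H P Z) : Nonempty (Cx N) := by
  obtain ⟨x₀, c₀, x1, x2, x3⟩ := H.one
  obtain ⟨k₀, k1, k2⟩ := g3_mv Z.gN.toGl3 (cl_0 Z N.i0) x2
  obtain ⟨x, hx, hx'⟩ := pin_fo Lv Z.X1 ⟨_, (N.φ1.cs (S.cap P.C).cs).mono (subset_univ _)⟩
  obtain ⟨x₃, hx₃⟩ := N.ex_v3
  obtain ⟨cL, hL⟩ := cu0 Z.g0 H.hB N.i0
  exact ⟨⟨k₀, N.ps_of_l (rl_eq _ k1),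
    (V_e Z H k₀ false).trans ((congrArg (pv · _) (rr_eq _ k2)).trans ((pv_eq x1 (H.zr false)).symm.trans x3)),
    V_al R ((al_iff Z).1 ⟨_, k2, x2⟩), x, N.cs_1 hx, hx', x₃, hx₃, cL, hL⟩⟩

/-- classes that restrict to `d` on both sides, with the least value -/
def Mp (N : NH H P Z) : Set Z.X.L := {k | (∀ b, N.PS b k) ∧ |V k (eX Z H false)| = 2 * π}

variable {N : NH H P Z} {k : Z.X.L}

theorem mp_of {k₁ k₂ k₃} (h₁ : N.PS false k₁) (h₂ : k₂ ∈ Mp N) (h₃ : N.PS true k₃) (e₁ : r1 Z k = r1 Z k₁)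
    (e₂ : r2 Z k = r2 Z k₂) (e₃ : r3 Z k = r3 Z k₃) : k ∈ Mp N :=
  have p : ∀ b, N.PS b k := fun | false => h₁.one e₁ | true => h₃.three e₃
  ⟨p, (congrArg abs (NH.v_eq p h₂.1 e₂)).trans h₂.2⟩

theorem mp_12 {j} (h₁ : rl Z.g12.toGl3 j ∈ r1 Z '' {k | N.PS false k}) (h₂ : rr Z.g12.toGl3 j ∈ r2 Z '' Mp N) :
    ∃ k ∈ Mp N, rl Z.gC.toGl3 k = j := by
  obtain ⟨k₁, h₁, e₁⟩ := h₁
  obtain ⟨k₂, h₂, e₂⟩ := h₂
  obtain ⟨s, hs, -⟩ := clsStmt.ko Z.X12 j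
  obtain ⟨s', hs', -⟩ := clsStmt.ki Z.X3 (r3 Z k₂)
  obtain ⟨k, a, b⟩ := g3_mv Z.gC.toGl3 hs (P.lj.elim s' s ▸ hs')
  have r := r_C Z a (rl_spec _ j) (rr_spec _ j) b
  exact ⟨k, mp_of h₁ h₂ (h₂.1 true) (r.1.trans e₁.symm) (r.2.1.trans e₂.symm) r.2.2, rl_eq _ a⟩

theorem mp_23 {j} (h₂ : rl Z.g23.toGl3 j ∈ r2 Z '' Mp N) (h₃ : rr Z.g23.toGl3 j ∈ r3 Z '' {k | N.PS true k}) :
    ∃ k ∈ Mp N, Z.gB.Rr k j := by
  obtain ⟨k₂, h₂, e₂⟩ := h₂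
  obtain ⟨k₃, h₃, e₃⟩ := h₃
  obtain ⟨s, hs, -⟩ := clsStmt.ko Z.X1 (r1 Z k₂)
  obtain ⟨s', hs', -⟩ := clsStmt.ki Z.X23 j
  obtain ⟨k, a, b⟩ := g3_mv Z.gB.toGl3 hs (P.li.elim s' s ▸ hs')
  have r := r_B Z b a (rl_spec _ j) (rr_spec _ j)
  exact ⟨k, mp_of (h₂.1 false) h₂ h₃ r.1 (r.2.1.trans e₂.symm) (r.2.2.trans e₃.symm), b⟩

theorem mp_l (h : rl Z.gN.toGl3 k = rl Z.g0.toGl3 N.i0) (h' : rr Z.gN.toGl3 k ∈ IN H) : k ∈ Mp N :=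
  ⟨N.ps_of_l h, (congrArg abs (V_e Z H k _)).trans h'.2⟩

theorem sq1 {z} (h : ∀ b, z ∈ N.MS b) :
    B _ (z + N.v false) (z + N.v false) = P.W.sq P.vL - B _ z (eX Z H false) ^ 2 := by
  simpa only [one_smul, zero_smul, add_zero, one_mul, zero_mul] using NH.sq h 1 0

theorem sq2 {z} (h : ∀ b, z ∈ N.MS b) : B _ (z + N.v false + N.v true) (z + N.v false + N.v true) =
    P.W.sq P.vL + P.W.sq P.vR - B _ z (eX Z H false) ^ 2 := by simpa only [one_smul, one_mul] using NH.sq h 1 1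

theorem gd_ps {w} (h : N.Gd k w) : Z.X.X.Ps k w := by
  obtain ⟨z, h1, h2, h3⟩ := h
  refine ps_of (cc Z k) w (cc_spec Z k) ?_
  rw [show w - cc Z k = z + N.v false + N.v true by rw [h2]; abel, sq2 h1]
  nlinarith [sq_le h3, pi_pos, P.bL, P.bR]

namespace Cx

variable (c : Cx N)
include c

theorem mρ (s : Bool) (h : k ∈ Mp N) : (Z.ρ s).r k ∈ Mp N :=
  ⟨fun b => (h.1 b).r s, by rw [NH.e1 h.1 c.p₀ c.a₀, abs_neg, h.2]⟩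

/-- the form on the first two pieces -/
def η₁₂ : FO Z.X12 := pL Z.g12 c.x + pR Z.g12 (c2 Z c.k₀)

/-- the form on the third piece -/
def η₃ : FO Z.X3 := c3 Z c.k₀ + c.x₃

/-- the form on `L` -/
def ηL : FO Z.L := c.cL + N.vL false + N.vL true

theorem gd (h : k ∈ Mp N) : N.Gd k (cf (pL Z.gC c.η₁₂ + pR Z.gC c.η₃)) := by
  have y := NH.y1 c.sx (c.p₀ _)
  refine ⟨p1 Z (c.x - c1 Z c.k₀) - N.v false + (cc Z c.k₀ - cc Z k), fun b => add_mem (y.1 b)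
    (((c.p₀ b).cs (cc_spec Z _)).sub ((h.1 b).cs (cc_spec Z _))), ?_, ?_⟩
  · simp only [cc, map_add, map_sub, ← c.h₃, η₁₂, η₃, p1, p2, p3, LinearMap.comp_apply]
    abel
  · rw [map_add, LinearMap.add_apply, y.2, zero_add, map_sub, LinearMap.sub_apply, V_cc, V_cc, c.v₀]
    exact (abs_sub _ _).trans (by rw [h.2, abs_of_pos two_pi_pos]; linarith)

theorem gdN (h : rl Z.gN.toGl3 k = rl Z.g0.toGl3 N.i0) (h' : rr Z.gN.toGl3 k ∈ IN H) : N.Gd k (pC Z.gN c.ηL) := by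
  refine ⟨pC Z.gN c.cL - cc Z k, fun b => (N.cs_0 c.hL b).sub ((N.ps_of_l h b).cs (cc_spec Z k)),
    by simp only [map_add, NH.v, ηL]; abel, ?_⟩
  rw [map_sub, LinearMap.sub_apply, B_fix Z H (pl_C Z _ _), V_cc, zero_sub, abs_neg, (mp_l h h').2]
  linarith [pi_pos]

theorem sg : (m4 P.W).Seg P.d P.η₁ (pl N.φ0 (pC Z.g0 c.ηL)).1 := by
  have := P.cpt
  have e : (pl N.φ0 (pC Z.g0 c.ηL)).1 = (pl N.φ0 (pC Z.g0 c.cL)).1 + P.vL + P.vR := by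
    simp only [ηL, map_add, Submodule.coe_add]
    exact congrArg₂ (_ + · + ·) (N.pm_v0 false) (N.pm_v0 true)
  exact seg_ex (X := m4 P.W) P.cη ⟨cur_cl P.cv, .of_compactSpace _, subset_univ _⟩ (P.cL.mono (subset_univ _))
    (P.cR.mono (subset_univ _)) _ e (cur_pb' isOpen_univ (difE_pb N.φ0 P.d) P.cv c.hL) P.seg

theorem ps1 (h : N.PS false k) : Z.X1.X.Ps (r1 Z k) c.x.1 := by
  have y := NH.y1 c.sx h
  have q := sq1 y.1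
  simp only [y.2, sub_add_cancel] at q
  exact ps_fo (c1 Z k) c.x (cu_spec (b := some _) _) (lt_of_lt_of_eq (by nlinarith [pi_pos, P.pL])
    (q.symm.trans ((B_LL Z.gC _ _).trans (B_LL Z.g12 _ _))))

theorem ps12 (h : k ∈ Mp N) : Z.X12.X.Seg (rl Z.gC.toGl3 k) c.η₁₂.1 (rfo Z.ρ12 c.η₁₂).1 := seg_fo _ _ fun t ht => by
  obtain ⟨z, z1, z2, z3⟩ := (c.gd h).cvx ((c.gd (c.mρ false h)).pl h.1) (c.gd h) (sub_nonneg.2 ht.2) ht.1 le_rfl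
    (by ring)
  have q := sq1 fun b => sub_mem (z1 b) (NH.y3 (c.p₀ true) (h.1 true) b)
  have q' : B _ (z - p3 Z (c3 Z c.k₀ - c3 Z k)) (eX Z H false) = B _ z (eX Z H false) :=
    (LinearMap.map_sub₂ _ _ _ _).trans ((congrArg _ (B_fix Z H (pl_p3 Z _))).trans (sub_zero _))
  have r : pl (Z.ρ false).toDif (cf (pL Z.gC c.η₁₂ + pR Z.gC c.η₃)) = cf (pL Z.gC (rfo Z.ρ12 c.η₁₂) + pR Z.gC c.η₃) :=
    congrArg cf ((map_add (rfo (Z.ρ false)) _ _).trans (congrArg₂ (· + ·) (rfo_L Z _) (rfo_R Z _)))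
  have e : z - p3 Z (c3 Z c.k₀ - c3 Z k) + N.v false =
      cf (pL Z.gC ((1 - t) • c.η₁₂ + t • rfo Z.ρ12 c.η₁₂ - (pL Z.g12 (c1 Z k) + pR Z.g12 (c2 Z k)))) := by
    simp only [r] at z2
    simp only [map_sub, map_add, map_smul, cc, p1, p2, p3, LinearMap.comp_apply, ← c.h₃, η₃] at z2 ⊢
    exact cvx_eq z2
  exact ps_fo _ _ (cur_12 Z k) ((sub_pos.2 ((sq_le z3).trans_lt P.bL)).trans_eq
    ((q.trans (congrArg (P.W.sq P.vL - · ^ 2) q')).symm.trans ((congrArg₂ (Pen22.B _ · ·) e e).trans (B_LL Z.gC _ _))))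

theorem psL : Z.L.X.Ps (rl Z.g0.toGl3 N.i0) c.ηL.1 := by
  obtain ⟨cl, hl⟩ := cu3 (cl_0 Z N.i0) G.tor
  have e : Ex Z.L.X.I Z.g0.l.source (c.cL - cl).1 := (cur_pb' Z.g0.l.open_source (rl_spec _ _) hl c.hL).congr
    fun p m => congrArg (· - cl.1 p) (Dr59.pm_psh Z.g0.l m _).symm
  have z : ∀ y : FO Z.L, Pen22.B _ (cf (c.cL - cl)) (cf y) = 0 := fun y =>
    ((fo_3 y).mono (sub_l Z.g0.toGl3)).ip_ex Z.L.X.ori e
  have q := sq2 (N := N) (z := 0) fun _ => zero_mem _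
  have e₁ : 0 + N.v false + N.v true = pC Z.gN (N.vL false + N.vL true) := by simp only [zero_add, map_add, NH.v]
  have e₂ : cf (c.ηL - cl) = cf (c.cL - cl) + cf (N.vL false + N.vL true) := by
    simp only [ηL, map_sub, map_add]
    abel
  exact ps_fo cl c.ηL hl (lt_of_lt_of_eq (by simp only [map_zero, LinearMap.zero_apply]; nlinarith [P.pL, P.pR])
    (q.symm.trans ((congrArg₂ (Pen22.B _ · ·) e₁ e₁).trans ((B_CC Z.gN _ _).trans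
      ((null_sq B_comm (z _) (z _)).symm.trans (congrArg₂ (Pen22.B _ · ·) e₂ e₂).symm)))))

theorem tri (s : Bool) (h : rl Z.gN.toGl3 k = rl Z.g0.toGl3 N.i0) (h' : rr Z.gN.toGl3 k ∈ IN H) :
    Z.X.X.Tri k (cf (pL Z.gC c.η₁₂ + pR Z.gC c.η₃)).1 (pl (Z.ρ s).toDif (cf (pL Z.gC c.η₁₂ + pR Z.gC c.η₃))).1
      (pC Z.gN c.ηL).1 :=
  have m := mp_l h h'
  tri_of _ _ _ fun _ _ _ e₀ e₁ e₂ e => gd_ps ((c.gd m).cvx ((c.gd (c.mρ s m)).pl m.1) (c.gdN h h') e₀ e₁ e₂ e)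

/-- the data of the pentagon -/
def dt (R : Rel G H) : Dt Z where
  I1 := r1 Z '' {k | N.PS false k}
  I2 := r2 Z '' Mp N
  I3 := r3 Z '' {k | N.PS true k}
  M := {k | rl Z.gN.toGl3 k = rl Z.g0.toGl3 N.i0 ∧ rr Z.gN.toGl3 k ∈ IN H}
  IL := {rl Z.g0.toGl3 N.i0}
  IN := IN H
  fL := finite_singleton _
  r12 j h₁ h₂ := by
    obtain ⟨k, h, rfl⟩ := mp_12 h₁ h₂
    have e := rl_eq _ (ρ0_l Z (rl_spec _ k))
    exact ⟨⟨_, (c.mρ false h).1 _, congrArg _ e⟩, _, c.mρ false h, congrArg _ e⟩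
  r23 j h₂ h₃ :=
    let ⟨k, h, b⟩ := mp_23 h₂ h₃
    have r := r_B Z (ρ1_r Z b) (ρ1_l Z (r1_B Z k)) (rl_spec _ _) (rr_spec _ _)
    ⟨⟨_, c.mρ true h, r.2.1⟩, _, (c.mρ true h).1 _, r.2.2⟩
  mI k h := ⟨⟨k, (mp_l h.1 h.2).1 _, rfl⟩, ⟨k, mp_l h.1 h.2, rfl⟩, k, (mp_l h.1 h.2).1 _, rfl⟩
  clL _ h := h ▸ cl_0 Z N.i0
  rN := in_ρ R
  rM s k h := ⟨(rl_ρ Z s k).trans h.1, (congrArg (· ∈ IN H) (rr_ρ Z s k)).mpr (in_ρ R s _ h.2)⟩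
  sat _ _ := Iff.rfl
  η1 _ := c.x
  η2 _ := c2 Z c.k₀
  η3 _ := c.η₃
  ηL _ := c.ηL
  fin := ⟨finite_range_const, finite_range_const, finite_range_const, finite_range_const⟩
  al _ _ h := h.2.1
  p1 _ _ := fun ⟨_, h, e⟩ => e ▸ c.ps1 h
  p12 _ _ h₁ h₂ := let ⟨_, h, e⟩ := mp_12 h₁ h₂; e ▸ c.ps12 h
  p _ s _ h := c.tri s h.1 h.2
  pL _ _ h := h ▸ c.psL
  p0 _ i h := clsStmt.mvb G Z.g0.toGl3 _ _ _ (h ▸ rl_spec _ N.i0) (rl_spec _ i) ▸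
    N.φ0.ps_pm (difE_pb N.φ0 P.d) (pC Z.g0 _).2 (Seg.one c.sg).2

end Cx

end cx

variable {K : Sk.{u}} {Q : Prd} (E : Eng K Q) (Lv : Lvs)
include Lv

theorem kil {C S : Q3} (s : Sph S.toO3) (hs : Injective s.π) (o : Ob E C) (o₀ : Ob E S) {σ : K.F (E.ob C) K.one}
    {T d η} (h : E.Rep (some C) none σ T d η) (n : T.nb = 0) (e : ∃ e, Cs T.X.I 2 univ e ∧ 0 < T.X.ip e e) :
    Sk.Kil2 o.u o₀.u σ := by
  obtain ⟨T₁, T₂, T', g, φ, x, x1, x2⟩ := Lv.pun C S s hs T n e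
  have n₁ := (nb_of g (φ.nb.symm.trans n)).1
  obtain ⟨σ', h'⟩ := E.ex1' (some C) none T' (difE φ.toDif d) 0 T'.zr_zero.fo nofun
  obtain ⟨σ₁, h₁⟩ := E.ex1' (some C) (some S) T₁ (rl g.toGl3 (difE φ.toDif d)) 0 T₁.zr_zero.fo nofun
  obtain ⟨σ₂, h₂⟩ := E.ex1' (some S) none T₂ (rr g.toGl3 (difE φ.toDif d)) 0 T₂.zr_zero.fo nofun
  have r : ∀ {a : Q3} {b σ T d η}, E.Rep (some a) b σ T d η → K.Htp σ σ := fun {_ _ _ T _ _} h =>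
    E.htp_wk Lv h h ⟨.refl _, .refl _, .refl _, rfl, fun _ _ => rfl⟩ pb_id nofun
  obtain ⟨τ, t1, t2⟩ := o.com Lv o₀ h₁ n₁
  exact ⟨σ₁, τ, σ₁, σ₂, (E.cm h' h₁ h₂ g (rl_spec _ _) (rr_spec _ _) nofun).congr
    (E.htp_wk Lv h h' φ (difE_pb _ d) nofun) (r h₁) (r h₂), t1, t2, r h₁, E.hi0 h₁ n₁ (Lv.pin.pos T₁ x1 x2)⟩

theorem cap_htp (hA : Pen22.AgStmt) {A : Q3} {C : Cp A} {T : Pm none (some A.toO3) none} (n : T.nb = 0)
    (φ : (m4 C.toW4).Dif T.X) (ko : Ag atTop (φ.φ ∘ C.ko) (Nc.k (A := A.toO3) T.ko)) {d : T.L} {x : FO T}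
    (hx : ∀ y, B _ y (cf x) = T.X.ip y (φ.ps C.η)) (p : T.X.Ps d x.1) {τ} (h : E.Rep none (some A) τ T d x.1) :
    C.Ps ((difE φ).symm d) C.η ∧ ∀ σ, E.RP C σ ((difE φ).symm d) → K.Htp σ τ := by
  have b : Pb φ.φ univ d ((difE φ).symm d) := by simpa using difE_pb φ ((difE φ).symm d)
  have c := (φ.cs C.cs).mono (subset_univ _)
  have q : (m4 C.toW4).Ps ((difE φ).symm d) C.η := φ.pm_ps C.η ▸ φ.symm.ps_eq _ ▸
    φ.symm.ps_ps (pb_symm b) c (null_ps (η := cf x) (η' := ⟨_, c⟩) (fun y => (hx y).symm) p)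
  refine ⟨q, fun σ ⟨e, he, hσ⟩ => ?_⟩
  obtain ⟨ψ, h1, h2⟩ := hA _ _ e.pm T (Pm.wk0 φ trivial (ag_trans nd_top (ag_comp he.1 _) ko) rfl n)
  refine E.uq hσ h ψ (h1 _ _ b) fun _ => null_seg (η := ⟨C.η, C.cs⟩) (η' := ⟨C.η, C.cs⟩) (η'' := pl ψ.toDif (cf x))
    (fun y => (h2 _ _ (cf x).2 y.2.cl).trans ?_) q.seg
  have := (B_pl φ (pl φ.symm y) (cf x)).trans ((hx _).trans (φ.ip_ps C.cs _))
  have e : pm (m4 C.toW4).I T.X.I φ.φ (pl φ.symm y).1 = y.1 :=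
    (congrArg (pm (m4 C.toW4).I T.X.I φ.φ) (φ.ps_eq y.1).symm).trans (φ.pm_ps y.1)
  exact (congrArg ((m4 C.toW4).ip · _) e).symm.trans (this.trans (congrArg ((m4 C.toW4).ip · _) e))

/-- **PENT-N** -/
theorem nv (hC : CutStmt) (hR : RelStmt) (hM : ModStmt) (hA : Pen22.AgStmt) : NvStmt E (16 * π ^ 2) := by
  intro S P o o₀
  obtain ⟨G, H, cut, cut'⟩ := hC
  obtain ⟨Z, ⟨N⟩⟩ := cut' S Q _ P
  obtain ⟨c⟩ := ex_cx Lv (hR G H) N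
  obtain ⟨O⟩ := E.pen G none _ _ ((c.dt (hR G H)).pg Lv) _ fun _ _ _ => Iff.rfl
  have u : ∀ j, (O.i j).1 = N.i0 := fun j =>
    let ⟨_, h, e⟩ := (O.i j).2
    clsStmt.mvb G Z.g0.toGl3 _ _ _ e (h ▸ rl_spec _ N.i0)
  refine ⟨_, _, _, O.D0, O.D1, _, _, O.Pn, has2 E Lv (hR G H) hM cut _ (in_ρ (hR G H)) fun x h e =>
    ⟨h, (congrArg abs e).trans (abs_of_pos two_pi_pos)⟩, fun i j => O.i.injective (Subtype.ext ((u i).trans (u j).symm)),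
    ?_, fun k => ⟨kil E Lv S.s0 S.inj o o₀ (O.rh k) (nb3 Z) ⟨_, (cf c.x₃).2, ?_⟩, o.inn Lv (O.rh k) (nb3 Z)⟩,
    fun ⟨_, k, hk, e⟩ => ?_⟩
  · obtain ⟨σ, h1, h2⟩ := E.ex1 P.W P.cpt P.d P.η₁ P.cη P.q (Seg.one c.sg).1
    refine ⟨O.i.symm ⟨N.i0, _, rfl, rl_spec _ _⟩, σ, (E.uq h1 (O.rι _) ⟨N.φ0, trivial, trivial, trivial, Z.g0.nT.symm,
      fun j => j.elim0⟩ ((u _).symm ▸ difE_pb N.φ0 P.d) fun _ => c.sg).symm', h2⟩
  · exact P.pR.trans_eq ((N.B_vv true true).symm.trans ((congrArg₂ (B _ · ·) c.h₃ c.h₃).symm.trans (B_RR Z.gC _ _)))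
  · subst e
    refine ⟨_, ?_, cap_htp E Lv hA (nb1 Z) N.φ1 N.ko c.hx (c.ps1 hk) (O.rf ⟨_, k, hk, rfl⟩)⟩
    have b : Pb N.φ1.φ.symm univ ((difE N.φ1).symm (r1 Z k)) (r1 Z k) := (N.φ1.symm.exists_pb _).choose_spec
    have s := fun p (m : p ∈ N.U false) => core_o Z.gB.toGl3 (N.l p m).1
    have a : Pb P.l (N.U false) ((difE N.φ1).symm (r1 Z k)) P.d :=
      pb_congr (pb_comp (pb_comp b (pb_inv Z.gB.l (r1_B Z k)) (mapsTo_univ _ _)) hk fun p m =>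
        mem_of_eq_of_mem (N.l p m).2 (Z.gB.l.map_source (s p m))) fun p m =>
        eventually_of_mem ((N.opU false).mem_nhds m) fun q hq => ((congrArg (fun x => N.φ1.φ.symm (Z.gB.l.symm x))
          (N.l q hq).2).trans ((congrArg N.φ1.φ.symm (Z.gB.l.left_inv (s q hq))).trans (N.φ1.φ.symm_apply_apply _))).symm
    refine pb_trunc (X := m4 P.W) (X' := m4 (S.cap P.C).toW4) (J' := Ioo P.α N.β) a (fun _ => P.l.ld) P.k.φ P.k.src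
      (fun z hz => ?_) (Ioo_subset_Ioo_right N.hβ.2) (N.opU false) isOpen_Ioo ordConnected_Ioo isOpen_Ioo ordConnected_Ioo
      (nonempty_Ioo.2 N.hβ.1) (Subset.antisymm (fun p m => (lt_or_ge (P.W.X.τ p) N.β).imp id fun e =>
        P.k.tgt.ge ⟨N.hβ.1.trans_le e, m⟩) (union_subset (fun _ m => lt_of_lt_of_le m N.hβ.2) fun _ m => (P.k.tgt.le m).2))
    have t := P.k.tm z (P.k.src.le hz)
    exact ⟨fun m => ⟨(P.k.src.le hz).1, t.symm.trans_lt m⟩, fun m => t.trans_lt m.2⟩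

end Crest.Agent.X212.Pen22
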