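import Crest.Agent.X212.Pen22.Bd
import Crest.Agent.X212.Pen22.La
import Crest.Agent.X212.Geo28.Top

/-!
# Row 212, layer GEO (helper22): pentagons at a rational homology sphere
-/

set_option autoImplicit false
set_option linter.unusedSectionVars false

open Set Filter Topology Function Module
open scoped ContDiff Manifold
open Crest.Agent.R208 Crest.Agent.R208.F
open Crest.Agent.X212.Dr59 (Cs Cl Ex HZ Bd Lat Mp ip pm psh)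
open Crest.Agent.X212.Orx52 (Pos pr oR)
open Crest.Agent.X212.Rfl19 Crest.Agent.X212.Nvg56 Crest.Agent.X212.Mv17

noncomputable section

universe u

namespace Crest.Agent.X212.Pen22

open Bor5.T Geo28 Real Flo2

section lat

variable {X : M4} (hb : Bd X.I 2 (univ : Set X.M) 3)
include hb

theorem lat3 {f₁ f₂ f₃ : CF X} (h₁ : B X f₁ f₂ = 0) (h₂ : B X f₁ f₃ = 0) (h₃ : B X f₂ f₃ = 0) (n₁ : B X f₁ f₁ ≠ 0)
    (n₂ : B X f₂ f₂ ≠ 0) (n₃ : B X f₃ f₃ ≠ 0) : Lat X.I X.o univ univ (fun i => (![f₁, f₂, f₃] i).1)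
      (Matrix.diagonal ![B X f₁ f₁, B X f₂ f₂, B X f₃ f₃]) where
  ori := X.ori
  op := isOpen_univ
  sub := subset_rfl
  bd := by simpa using hb
  cs i := (![f₁, f₂, f₃] i).2
  gram i j := by
    show B X (![f₁, f₂, f₃] i) (![f₁, f₂, f₃] j) = _
    fin_cases i <;> fin_cases j <;> simp [h₁, h₂, h₃, B_comm f₂ f₁, B_comm f₃ f₁, B_comm f₃ f₂]
  det := by simp [Fin.prod_univ_three, n₁, n₂, n₃]

theorem rk3 : Rk3 (B X) := fun _ _ _ h₁ h₂ h₃ n₁ n₂ n₃ y z =>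
  ((lat3 hb h₁ h₂ h₃ n₁ n₂ n₃).diag y.2.cl z.2).trans (by rw [Fin.sum_univ_three]; rfl)

theorem deg3 {f₁ f₂ f₃ : CF X} (h₁ : B X f₁ f₂ = 0) (h₂ : B X f₁ f₃ = 0) (h₃ : B X f₂ f₃ = 0) (n₁ : B X f₁ f₁ < 0)
    (n₂ : 0 < B X f₂ f₂) (n₃ : B X f₃ f₃ < 0) : X.Bp 1 ∧ ∀ (d : X.L) (c : CF X) (x : ℚ), Cur d c.1 →
      4 * (x : ℝ) = B X c c / (4 * π ^ 2) - 3 → X.Deg d x := by
  have l := lat3 hb h₁ h₂ h₃ n₁.ne n₂.ne' n₃.ne
  refine ⟨⟨_, _, _, _, l, Nat.card_eq_one_iff_exists.2 ⟨⟨1, n₂⟩, fun ⟨a, ha⟩ => Subtype.ext ?_⟩⟩,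
    fun d c x hc e => ⟨_, _, _, _, c.1, l, c.2, hc, e.trans ?_⟩⟩
  · fin_cases a
    exacts [(n₁.not_gt ha).elim, rfl, (n₃.not_gt ha).elim]
  · rw [Fin.sum_univ_three]
    simp only [Matrix.cons_val_zero, Matrix.cons_val_one, Matrix.cons_val, sign_neg n₁, sign_pos n₂, sign_neg n₃]
    show _ = B X c c / (4 * π ^ 2) - _ - _
    norm_num
    ring

end lat

theorem null_ps {X : M4} {d : X.L} {η η' : CF X} (e : ∀ y, B X y η' = B X y η) (h : X.Ps d η) : X.Ps d η' :=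
  let ⟨c, h1, h2⟩ := of_ps h
  ps_of c η' h1 (by
    simp only [map_sub, LinearMap.sub_apply] at h2 ⊢
    linarith [e η', e c, B_comm η' η, e η, B_comm η' c, B_comm η c])

theorem pin_fo (Lv : Lvs) {a b x : Option O3} (T : Pm a b x) (e : CF T.X) :
    ∃ y : FO T, Ex T.X.I univ (y.1 - e.1) ∧ ∀ z, B _ z (cf y) = B _ z e :=
  let ⟨y, h1, h2, h3⟩ := Lv.pin _ _ _ T e.1 e.2
  ⟨⟨y, h1⟩, h2, fun z => h3 z.1 z.2.cl⟩

/-- the classes of diffeomorphic manifolds -/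
def difE {X X' : M4} (φ : X.Dif X') : X.L ≃ X'.L where
  toFun d := (φ.exists_pb d).choose
  invFun d := (φ.symm.exists_pb d).choose
  left_inv d := pb_unique (pb_symm (φ.symm.exists_pb _).choose_spec) (φ.exists_pb d).choose_spec
  right_inv d := pb_unique (pb_symm (φ.exists_pb _).choose_spec) (φ.symm.exists_pb d).choose_spec

theorem difE_pb {X X' : M4} (φ : X.Dif X') (d : X.L) : Pb φ.φ univ (difE φ d) d := (φ.exists_pb d).choose_spec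

theorem cl3 {a b : Option O3} {A : O3} {L : Pm a b (some A)} {Q : Pm (some A) none none} {T : Pm a b none}
    (g : Cp3 L Q T) {d l} (h : g.Rl d l) : (∀ s, L.ki.Cl l s ↔ T.ki.Cl d s) ∧ ∀ s, L.ko.Cl l s ↔ T.ko.Cl d s :=
  ⟨fun s => clsStmt.agi a _ _ g.l _ _ _ s g.l.open_source
    ⟨0, fun p k => (mem_l g.toGl3).2 ((L.i3 p k).trans_lt four_pos)⟩ (by
      rcases a with _ | a
      exacts [trivial, ag_of_eq ((eventually_lt_atBot 0).mono fun t ht y => g.ki y t ht (abs_pos.2 ht.ne))]) h,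
  fun s => clsStmt.ago b _ _ g.l _ _ _ s g.l.open_source
    ⟨0, fun p k => (mem_l g.toGl3).2 ((L.o3 p k).trans_lt four_pos)⟩ (by
      rcases b with _ | b
      exacts [trivial, ag_of_eq ((eventually_gt_atTop 0).mono fun t ht y => g.ko y t ht (abs_pos.2 ht.ne'))]) h⟩

theorem cl_0 {G : CG} {a B C} (Z : PG0 G a B C) (i : Z.X0.L) : Z.L.k3.Cl (rl Z.g0.toGl3 i) G.c0 :=
  (cl_lr _ (rl_spec _ i) (G.uB _ ▸ rr_spec _ i)).2 G.clB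

variable {G : CG} {A B C : Q3} {Z : PG0 G (some A) B C} {H : CH G} (Lv : Lvs) (ph : PH H Z)
include Lv ph

theorem cyl0 : Z.X0.WCyl ∧ (∀ s, ∃! i, Z.X0.ki.Cl i s) ∧ ∀ i s, Z.X0.ki.Cl i s ↔ Z.X0.ko.Cl i s := by
  obtain ⟨T, hT, ⟨φ⟩⟩ := ph.cyl
  obtain ⟨ψ, h1, h2, h3⟩ := hT.w
  have a := fun i s => clsStmt.agi _ _ _ φ.φ _ i _ s isOpen_univ ⟨0, fun _ _ => trivial⟩ φ.ki (difE_pb φ.toDif i)
  have b := fun i s => clsStmt.ago _ _ _ φ.φ _ i _ s isOpen_univ ⟨0, fun _ _ => trivial⟩ φ.ko (difE_pb φ.toDif i)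
  refine ⟨⟨ψ.trans φ.φ.symm, φ.toDif.symm.pos.comp h1 (fun y _ => φ.φ.symm.isLocalDiffeomorph y)
    (fun y _ => ψ.isLocalDiffeomorph y) (mapsTo_univ _ _), ag_trans nd_bot (ag_comp h2 _) (φ.ki.symm nd_bot φ.toDif),
    ag_trans nd_top (ag_comp h3 _) (φ.ko.symm nd_top φ.toDif)⟩, fun s => ?_,
    fun i s => (a i s).trans (((Lv.cyl.cl _ T hT).2 _ _).trans (b i s).symm)⟩
  simp only [a]
  exact ((difE φ.toDif).existsUnique_congr fun _ => Iff.rfl).2 ((Lv.cyl.cl _ T hT).1 s)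

theorem top0 : HZ Z.X0.X.I 1 (univ : Set Z.X0.M) ∧ Z.X0.X.Bp 0 ∧ ∀ i, Z.X0.X.Deg i 0 := by
  obtain ⟨ψ, -⟩ := (cyl0 Lv ph).1
  have z : ∀ n, HZ A.Y.I n (univ : Set A.Y.M) → HZ Z.X0.X.I n (univ : Set Z.X0.M) := fun n h => by
    have := (Dr59.hz_pd ψ.toPartialDiffeomorph isOpen_univ (subset_univ _)).2
      (univ_prod_univ ▸ h.prod_convex isOpen_univ isOpen_univ convex_univ)
    rwa [show ψ.toPartialDiffeomorph '' univ = univ from image_univ_of_surjective ψ.surjective] at this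
  have l : Lat Z.X0.X.I Z.X0.X.o univ univ (Fin.elim0 : Fin 0 → _) (Matrix.diagonal Fin.elim0) :=
    .empty Z.X0.X.ori isOpen_univ subset_rfl (z 2 A.h2)
  refine ⟨z 1 A.h1, ⟨0, _, _, _, l, Nat.card_of_isEmpty⟩, fun i => ⟨0, _, _, _, _, l, (cf (cu i)).2, cu_spec i, ?_⟩⟩
  rw [show Z.X0.X.ip _ _ = 0 from (cf (cu i)).2.ip_ex Z.X0.X.ori (z 2 A.h2 _ (cf (cu i)).2.cl)]
  simp

theorem il_eq {l l' : Z.L.L} (h : Z.L.k3.Cl l G.c0) (h' : Z.L.k3.Cl l' G.c0) {s} (e : Z.L.ki.Cl l s)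
    (e' : Z.L.ki.Cl l' s) : l = l' := by
  obtain ⟨i, k, -⟩ := g3_mv Z.g0.toGl3 h G.clB
  obtain ⟨i', k', -⟩ := g3_mv Z.g0.toGl3 h' G.clB
  cases ((cyl0 Lv ph).2.1 s).unique (((cl3 Z.g0 k).1 s).1 e) (((cl3 Z.g0 k').1 s).1 e')
  exact (g3_l _ i).unique k k'

theorem il_io {l : Z.L.L} (h : Z.L.k3.Cl l G.c0) {s} (e : Z.L.ki.Cl l s) : Z.L.ko.Cl l s :=
  let ⟨i, k, _⟩ := g3_mv Z.g0.toGl3 h G.clB
  ((cl3 Z.g0 k).2 s).2 (((cyl0 Lv ph).2.2 i s).1 (((cl3 Z.g0 k).1 s).1 e))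

theorem il_fin : {l | Z.L.k3.Cl l G.c0}.Finite :=
  have := A.fin
  Finite.of_injective (fun l : {l | Z.L.k3.Cl l G.c0} => (show A.L from (clsStmt.ki Z.L l.1).exists.choose))
    fun l l' e => Subtype.ext (il_eq Lv ph l.2 l'.2 (clsStmt.ki Z.L l.1).exists.choose_spec
      ((congrArg (Z.L.ki.Cl l'.1) e).mpr (clsStmt.ki Z.L l'.1).exists.choose_spec))

variable (Z H) in
/-- the sum of the spheres -/
abbrev sX : CF Z.X.X := eX Z H false + eX Z H true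

omit Lv ph in
theorem B_es (s : Bool) : Pen22.B _ (eX Z H s) (sX Z H) = 0 := by cases s <;> simp [B_ee]

omit Lv ph in
theorem B_ss : Pen22.B _ (sX Z H) (sX Z H) = 0 := by
  rw [map_add, B_comm, B_es, B_comm, B_es, add_zero]

omit Lv in
theorem ex_ns : ∃ y, Pen22.B _ y (sX Z H) ≠ 0 :=
  let ⟨y, h1, h2⟩ := ph.ns
  ⟨⟨y, h1⟩, (map_add (Pen22.B _ ⟨y, h1⟩) _ _).trans_ne h2⟩

/-- the forms: the class of the positive handle, with the sign of the class -/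
theorem ex_fm : ∃ (b₁ : FO Z.X1) (b₂ : FO Z.X2) (b₃ : FO Z.X3) (a : CF Z.X.X), 4 * π ^ 2 < Pen22.B _ a a ∧ ∀ k,
    cf (glu Z.gC (glu Z.g12 (fun d => ep (V d (cf b₁)) • b₁) fun d => ep (V d (cf b₂)) • b₂)
      (fun d => ep (V d (cf b₃)) • b₃) k) = ep (V k a) • a := by
  have p := fun {a b} (T : Pm a b none) (h : ∃ y, Cs T.X.I 2 univ y ∧ T.X.ip y y ≠ 0) =>
    show ∃ y : FO T, Pen22.B _ (cf y) (cf y) ≠ 0 from
    let ⟨y, h1, h2⟩ := h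
    let ⟨z, _, k⟩ := pin_fo Lv T ⟨y, h1⟩
    ⟨z, by rwa [k, B_comm, k]⟩
  obtain ⟨a₁, n₁⟩ := p _ ph.q1
  obtain ⟨a₂, n₂⟩ := p _ ph.q2
  obtain ⟨a₃, n₃⟩ := p _ ph.q3
  obtain ⟨y, hy⟩ := ex_ns ph
  have g : ∀ (b₁ : FO Z.X1) (b₂ : FO Z.X2) (b₃ : FO Z.X3) k,
      cf (glu Z.gC (glu Z.g12 (fun d => ep (V d (cf b₁)) • b₁) fun d => ep (V d (cf b₂)) • b₂)
        (fun d => ep (V d (cf b₃)) • b₃) k) = ep (V k (cf (pL Z.gC (pL Z.g12 b₁)))) • cf (pL Z.gC (pL Z.g12 b₁)) +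
        ep (V k (cf (pL Z.gC (pR Z.g12 b₂)))) • cf (pL Z.gC (pR Z.g12 b₂)) + ep (V k (cf (pR Z.gC b₃))) • cf (pR Z.gC b₃) :=
    fun b₁ b₂ b₃ k => by
      rw [V_L _ (rl_spec _ k), V_L _ (rl_spec _ k), V_R _ (rr_spec _ k), V_L _ (rl_spec _ _), V_R _ (rr_spec _ _)]
      simp only [glu, map_add, map_smul]
  rcases (rk3 ph.bd).pos B_ss hy (f₁ := cf (pL Z.gC (pL Z.g12 a₁))) (f₂ := cf (pL Z.gC (pR Z.g12 a₂)))
    (f₃ := cf (pR Z.gC a₃)) (by rw [B_LL, B_LR]) (B_LR _ _ _) (B_LR _ _ _) (by rwa [B_LL, B_LL]) (by rwa [B_LL, B_RR])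
    (by rwa [B_RR]) with h | h | h <;> obtain ⟨μ, hμ⟩ := exists_mu h
  · exact ⟨μ • a₁, 0, 0, cf (pL Z.gC (pL Z.g12 (μ • a₁))), by simpa using hμ, fun k => by rw [g]; simp⟩
  · exact ⟨0, μ • a₂, 0, cf (pL Z.gC (pR Z.g12 (μ • a₂))), by simpa using hμ, fun k => by rw [g]; simp⟩
  · exact ⟨0, 0, μ • a₃, cf (pR Z.gC (μ • a₃)), by simpa using hμ, fun k => by rw [g]; simp⟩

omit Lv ph in
theorem fin_ep {α β : Type} [AddCommGroup β] [Module ℝ β] (f : α → ℝ) (b : β) : (range fun d => ep (f d) • b).Finite :=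
  (toFinite {(-1 : ℝ) • b, (1 : ℝ) • b}).subset (range_subset_iff.2 fun d => by unfold ep; split_ifs <;> simp)

/-- the data of a model pentagon -/
theorem ex_dt (M : Set Z.X.L) (IN : Set G.N.L) (rN : ∀ s, ∀ x ∈ IN, (G.ρ s).r x ∈ IN)
    (rM : ∀ s, ∀ k ∈ M, (Z.ρ s).r k ∈ M) (sat : ∀ k, Al Z k → (k ∈ M ↔ rr Z.gN.toGl3 k ∈ IN)) :
    ∃ (D : Dt Z) (a : CF Z.X.X), D.I1 = univ ∧ D.I2 = univ ∧ D.I3 = univ ∧ D.M = M ∧ D.IN = IN ∧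
      D.IL = {l | Z.L.k3.Cl l G.c0} ∧ 4 * π ^ 2 < Pen22.B _ a a ∧
      ∀ k, cf (glu Z.gC (glu Z.g12 D.η1 D.η2) D.η3 k) = ep (V k a) • a :=
  let ⟨_, _, _, a, h1, h2⟩ := ex_fm Lv ph
  ⟨⟨univ, univ, univ, M, _, IN, il_fin Lv ph, fun _ _ _ => ⟨trivial, trivial⟩, fun _ _ _ => ⟨trivial, trivial⟩,
    fun _ _ => ⟨trivial, trivial, trivial⟩, fun _ h => h, rN, rM,
    fun k h => (sat k h).trans (and_iff_right ((al_L Z).2 h)).symm, _, _, _, 0,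
    ⟨fin_ep _ _, fin_ep _ _, fin_ep _ _, finite_range_const⟩, nofun, nofun, nofun, nofun, nofun, nofun⟩,
    a, rfl, rfl, rfl, rfl, rfl, rfl, h1, h2⟩

end Crest.Agent.X212.Pen22
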